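import Vale.Agent.P057G.Ms4

/-!
Forms on multi-affine Gaussian systems: semantic definitions and closure rules.
-/

open Matrix Finset
open scoped Real
open Vale.Agent.P267.H775 Vale.Agent.P057G

namespace Vale.Agent.P057MA

noncomputable section

variable {V ι : Type*} [DecidableEq ι]

/-- `f` depends only on the coordinates in `q` -/
def On (q : Finset ι) (f : (ι → ℝ) → ℝ) : Prop := ∀ z z', (∀ i ∈ q, z i = z' i) → f z = f z'

/-- integer values at integer points -/
def IntV (f : (ι → ℝ) → ℝ) : Prop := ∀ z : ι → ℤ, ∃ n : ℤ, f (toR z) = n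

variable [Fintype ι] [DecidableEq V]

/-- a form on `q`, linear in every direction of `L` -/
structure Fm (S : MS V ι) (q : Finset ι) (L : Finset V) (f : (ι → ℝ) → ℝ) : Prop where
  on : On q f
  lin : ∀ v ∈ L, Lin (S.st v) f

/-- a function on `q`, affine in every direction of `L` -/
structure Af (S : MS V ι) (q : Finset ι) (L : Finset V) (f : (ι → ℝ) → ℝ) : Prop where
  on : On q f
  aff : ∀ v ∈ L, Aff (S.st v) f

/-- a closed set of indices: a union of blocks that contains what it depends on -/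
structure Cls (S : MS V ι) (q : Finset ι) : Prop where
  blk : ∀ i j, S.fc i = S.fc j → S.lv i = S.lv j → i ∈ q → j ∈ q
  dep : ∀ i ∈ q, ∀ j, S.Dep i j → j ∈ q

/-- the indices whose face meets `L` -/
def cov (S : MS V ι) (L : Finset V) : Finset ι := univ.filter fun i => ∃ v ∈ L, v ∈ S.fc i

/-- the indices whose face lies in `F` -/
def fce (S : MS V ι) (F : Finset V) : Finset ι := univ.filter fun i => S.fc i ⊆ F

/-- the indices of level below `l` -/
def low (S : MS V ι) (l : ℕ) : Finset ι := univ.filter fun i => S.lv i < l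

/-- the squared length of the real position vector on `q` -/
def ln2 (S : MS V ι) (q : Finset ι) (z : ι → ℝ) : ℝ := qq S.G (msk q (z - S.p z))

/-- `f` is at most `K` on the real unit ball of the positions on `q` -/
def Nle (S : MS V ι) (q : Finset ι) (f : (ι → ℝ) → ℝ) (K : ℝ) : Prop :=
  ∀ z, ln2 S q z ≤ 1 → |f z| ≤ K

/-- `f` is an integer form up to size `K` -/
def Near (S : MS V ι) (q : Finset ι) (L : Finset V) (f : (ι → ℝ) → ℝ) (K : ℝ) : Prop :=
  ∃ I, Fm S q L I ∧ IntV I ∧ Nle S q (fun z => f z - I z) K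

/-- uniform narrowing by the factor `W` -/
def nar (S : MS V ι) (W : ℝ) : MS V ι := S.gram (W ^ 2 • S.G)

/-! ### closure rules -/

omit [Fintype ι] [DecidableEq V] [DecidableEq ι] in
theorem On.mono {q q' : Finset ι} {f : (ι → ℝ) → ℝ} (h : On q f) (hq : q ⊆ q') : On q' f :=
  fun z z' hz => h z z' fun i hi => hz i (hq hi)

omit [Fintype ι] [DecidableEq V] [DecidableEq ι] in
theorem On.const (q : Finset ι) (c : ℝ) : On q fun _ => c := fun _ _ _ => rfl

omit [Fintype ι] [DecidableEq V] [DecidableEq ι] in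
theorem On.map₂ {q : Finset ι} {f g : (ι → ℝ) → ℝ} (hf : On q f) (hg : On q g) (φ : ℝ → ℝ → ℝ) :
    On q fun z => φ (f z) (g z) := fun z z' hz => by
  beta_reduce; rw [hf z z' hz, hg z z' hz]

omit [Fintype ι] [DecidableEq V] [DecidableEq ι] in
theorem On.sum {κ : Type*} {q : Finset ι} (s : Finset κ) {f : κ → (ι → ℝ) → ℝ}
    (hf : ∀ k ∈ s, On q (f k)) : On q fun z => ∑ k ∈ s, f k z := fun z z' hz =>
  sum_congr rfl fun k hk => hf k hk z z' hz

omit [Fintype ι] [DecidableEq V] [DecidableEq ι] in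
theorem On.coord {q : Finset ι} {j : ι} (hj : j ∈ q) : On q fun z => z j := fun _ _ hz => hz j hj

omit [Fintype ι] [DecidableEq V] [DecidableEq ι] in
theorem IntV.add {f g : (ι → ℝ) → ℝ} (hf : IntV f) (hg : IntV g) : IntV fun z => f z + g z :=
  fun z => by
    obtain ⟨a, ha⟩ := hf z
    obtain ⟨b, hb⟩ := hg z
    exact ⟨a + b, by beta_reduce; rw [ha, hb]; push_cast; rfl⟩

omit [Fintype ι] [DecidableEq V] [DecidableEq ι] in
theorem IntV.mul {f g : (ι → ℝ) → ℝ} (hf : IntV f) (hg : IntV g) : IntV fun z => f z * g z :=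
  fun z => by
    obtain ⟨a, ha⟩ := hf z
    obtain ⟨b, hb⟩ := hg z
    exact ⟨a * b, by beta_reduce; rw [ha, hb]; push_cast; rfl⟩

omit [Fintype ι] [DecidableEq V] [DecidableEq ι] in
theorem IntV.const (n : ℤ) : IntV fun _ : ι → ℝ => (n : ℝ) := fun _ => ⟨n, rfl⟩

omit [Fintype ι] [DecidableEq V] [DecidableEq ι] in
theorem IntV.zero : IntV fun _ : ι → ℝ => (0 : ℝ) := fun _ => ⟨0, by simp⟩

omit [Fintype ι] [DecidableEq V] [DecidableEq ι] in
theorem IntV.neg {f : (ι → ℝ) → ℝ} (hf : IntV f) : IntV fun z => -f z := fun z => by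
  obtain ⟨a, ha⟩ := hf z
  exact ⟨-a, by beta_reduce; rw [ha]; push_cast; rfl⟩

omit [Fintype ι] [DecidableEq V] [DecidableEq ι] in
theorem IntV.sub {f g : (ι → ℝ) → ℝ} (hf : IntV f) (hg : IntV g) : IntV fun z => f z - g z := by
  simpa only [sub_eq_add_neg] using hf.add hg.neg

omit [Fintype ι] [DecidableEq V] [DecidableEq ι] in
theorem IntV.coord (j : ι) : IntV fun z : ι → ℝ => z j := fun z => ⟨z j, rfl⟩

omit [Fintype ι] [DecidableEq V] [DecidableEq ι] in
theorem IntV.sum {κ : Type*} (s : Finset κ) {f : κ → (ι → ℝ) → ℝ} (hf : ∀ k ∈ s, IntV (f k)) :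
    IntV fun z => ∑ k ∈ s, f k z := by
  classical
  induction s using Finset.induction_on with
  | empty => simpa using IntV.zero
  | insert a s ha ih =>
    simp only [sum_insert ha]
    exact (hf a (mem_insert_self _ _)).add (ih fun k hk => hf k (mem_insert_of_mem hk))

omit [Fintype ι] [DecidableEq V] in
theorem lin_comb {r : Finset ι} {f g : (ι → ℝ) → ℝ} (hf : Lin r f) (hg : Lin r g) (a b : ℝ) :
    Lin r fun z => a * f z + b * g z := fun y =>
  ⟨fun x x' => by
    have h1 := (hf y).map_add x x'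
    have h2 := (hg y).map_add x x'
    beta_reduce at h1 h2 ⊢
    linear_combination a * h1 + b * h2, fun c x => by
    have h1 := (hf y).map_smul c x
    have h2 := (hg y).map_smul c x
    simp only [smul_eq_mul] at h1 h2 ⊢
    linear_combination a * h1 + b * h2⟩

omit [Fintype ι] [DecidableEq V] in
theorem aff_comb {r : Finset ι} {f g : (ι → ℝ) → ℝ} (hf : Aff r f) (hg : Aff r g) (a b : ℝ) :
    Aff r fun z => a * f z + b * g z := fun y =>
  ⟨fun x x' => by
    have h1 := (hf y).map_add x x'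
    have h2 := (hg y).map_add x x'
    beta_reduce at h1 h2 ⊢
    linear_combination a * h1 + b * h2, fun c x => by
    have h1 := (hf y).map_smul c x
    have h2 := (hg y).map_smul c x
    simp only [smul_eq_mul] at h1 h2 ⊢
    linear_combination a * h1 + b * h2⟩

variable {S : MS V ι} {q : Finset ι} {L : Finset V} {f g : (ι → ℝ) → ℝ}

theorem Fm.af (h : Fm S q L f) : Af S q L f := ⟨h.on, fun v hv => (h.lin v hv).aff⟩

theorem Fm.comb (hf : Fm S q L f) (hg : Fm S q L g) (a b : ℝ) :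
    Fm S q L fun z => a * f z + b * g z :=
  ⟨hf.on.map₂ hg.on fun x y => a * x + b * y, fun v hv => lin_comb (hf.lin v hv) (hg.lin v hv) a b⟩

theorem Fm.add (hf : Fm S q L f) (hg : Fm S q L g) : Fm S q L fun z => f z + g z := by
  simpa only [one_mul] using hf.comb hg 1 1

theorem Fm.sub (hf : Fm S q L f) (hg : Fm S q L g) : Fm S q L fun z => f z - g z := by
  simpa only [one_mul, neg_mul, ← sub_eq_add_neg] using hf.comb hg 1 (-1)

theorem Fm.smul (hf : Fm S q L f) (a : ℝ) : Fm S q L fun z => a * f z := by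
  simpa only [zero_mul, add_zero] using hf.comb hf a 0

theorem Fm.neg (hf : Fm S q L f) : Fm S q L fun z => -f z := by
  simpa only [neg_mul, one_mul] using hf.smul (-1)

theorem Fm.zero (S : MS V ι) (q : Finset ι) (L : Finset V) : Fm S q L fun _ => 0 :=
  ⟨On.const q 0, fun _ _ _ => ⟨fun _ _ => by simp, fun _ _ => by simp⟩⟩

theorem Fm.sum {κ : Type*} (s : Finset κ) {f : κ → (ι → ℝ) → ℝ} (hf : ∀ k ∈ s, Fm S q L (f k)) :
    Fm S q L fun z => ∑ k ∈ s, f k z :=
  ⟨On.sum s fun k hk => (hf k hk).on, fun v hv => by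
    simpa only [one_mul] using Lin.sum s (fun _ => 1) fun k hk => (hf k hk).lin v hv⟩

theorem Fm.mono (hf : Fm S q L f) {q' : Finset ι} {L' : Finset V} (hq : q ⊆ q') (hL : L' ⊆ L) :
    Fm S q' L' f := ⟨hf.on.mono hq, fun v hv => hf.lin v (hL hv)⟩

theorem Af.comb (hf : Af S q L f) (hg : Af S q L g) (a b : ℝ) :
    Af S q L fun z => a * f z + b * g z :=
  ⟨hf.on.map₂ hg.on fun x y => a * x + b * y, fun v hv => aff_comb (hf.aff v hv) (hg.aff v hv) a b⟩

theorem Af.add (hf : Af S q L f) (hg : Af S q L g) : Af S q L fun z => f z + g z := by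
  simpa only [one_mul] using hf.comb hg 1 1

theorem Af.sub (hf : Af S q L f) (hg : Af S q L g) : Af S q L fun z => f z - g z := by
  simpa only [one_mul, neg_mul, ← sub_eq_add_neg] using hf.comb hg 1 (-1)

theorem Af.smul (hf : Af S q L f) (a : ℝ) : Af S q L fun z => a * f z := by
  simpa only [zero_mul, add_zero] using hf.comb hf a 0

theorem Af.const (S : MS V ι) (q : Finset ι) (L : Finset V) (c : ℝ) : Af S q L fun _ => c :=
  ⟨On.const q c, fun _ _ _ => ⟨fun _ _ => by simp, fun _ _ => by simp⟩⟩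

theorem Af.sum {κ : Type*} (s : Finset κ) {f : κ → (ι → ℝ) → ℝ} (hf : ∀ k ∈ s, Af S q L (f k)) :
    Af S q L fun z => ∑ k ∈ s, f k z :=
  ⟨On.sum s fun k hk => (hf k hk).on, fun v hv => by
    simpa only [one_mul] using Aff.sum s (fun _ => 1) fun k hk => (hf k hk).aff v hv⟩

theorem Af.mono (hf : Af S q L f) {q' : Finset ι} {L' : Finset V} (hq : q ⊆ q') (hL : L' ⊆ L) :
    Af S q' L' f := ⟨hf.on.mono hq, fun v hv => hf.aff v (hL hv)⟩

omit [DecidableEq ι] in
theorem mem_cov {i : ι} : i ∈ cov S L ↔ ∃ v ∈ L, v ∈ S.fc i := by simp [cov]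

omit [DecidableEq ι] in
theorem mem_fce {F : Finset V} {i : ι} : i ∈ fce S F ↔ S.fc i ⊆ F := by simp [fce]

omit [DecidableEq ι] [DecidableEq V] in
theorem mem_low {l : ℕ} {i : ι} : i ∈ low S l ↔ S.lv i < l := by simp [low]

theorem Cls.sat (h : Cls S q) (hS : S.Ok) : Sat S.G q := hS.sat h.blk

omit [DecidableEq V] [Fintype ι] in
theorem Cls.inter {q' : Finset ι} (h : Cls S q) (h' : Cls S q') : Cls S (q ∩ q') :=
  ⟨fun i j a b hi => mem_inter.2 ⟨h.blk i j a b (mem_inter.1 hi).1, h'.blk i j a b (mem_inter.1 hi).2⟩,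
    fun i hi j hj => mem_inter.2 ⟨h.dep i (mem_inter.1 hi).1 j hj, h'.dep i (mem_inter.1 hi).2 j hj⟩⟩

omit [DecidableEq ι] in
theorem cls_fce (S : MS V ι) (F : Finset V) : Cls S (fce S F) :=
  ⟨fun _ _ a _ hi => mem_fce.2 (a ▸ mem_fce.1 hi),
    fun _ hi _ hj => mem_fce.2 (hj.1.trans (mem_fce.1 hi))⟩

omit [DecidableEq ι] [DecidableEq V] in
theorem cls_low (S : MS V ι) (l : ℕ) : Cls S (low S l) :=
  ⟨fun _ _ _ b hi => mem_low.2 (b ▸ mem_low.1 hi),
    fun _ hi _ hj => mem_low.2 (hj.2.trans (mem_low.1 hi))⟩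

omit [DecidableEq ι] [DecidableEq V] in
theorem cls_univ (S : MS V ι) : Cls S univ := ⟨fun _ _ _ _ _ => mem_univ _, fun _ _ _ _ => mem_univ _⟩

theorem Cls.sdiff_st (h : Cls S q) (v : V) : Cls S (q \ S.st v) :=
  ⟨fun i j a b hi => Finset.mem_sdiff.2 ⟨h.blk i j a b (Finset.mem_sdiff.1 hi).1, fun hj =>
      (Finset.mem_sdiff.1 hi).2 (S.mem_st.2 (a ▸ S.mem_st.1 hj))⟩,
    fun i hi j hj => Finset.mem_sdiff.2 ⟨h.dep i (Finset.mem_sdiff.1 hi).1 j hj, fun h2 =>
      (Finset.mem_sdiff.1 hi).2 (S.mem_st.2 (hj.1 (S.mem_st.1 h2)))⟩⟩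

omit [DecidableEq V] in
theorem Nle.mono {K K' : ℝ} (h : Nle S q f K) (hK : K ≤ K') : Nle S q f K' :=
  fun z hz => (h z hz).trans hK

omit [DecidableEq V] in
theorem Nle.add {K K' : ℝ} (h : Nle S q f K) (h' : Nle S q g K') :
    Nle S q (fun z => f z + g z) (K + K') :=
  fun z hz => (abs_add_le _ _).trans (add_le_add (h z hz) (h' z hz))

omit [DecidableEq V] in
theorem Nle.smul {K : ℝ} (h : Nle S q f K) (a : ℝ) : Nle S q (fun z => a * f z) (|a| * K) :=
  fun z hz => by rw [abs_mul]; exact mul_le_mul_of_nonneg_left (h z hz) (abs_nonneg a)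

omit [DecidableEq V] in
theorem Nle.neg {K : ℝ} (h : Nle S q f K) : Nle S q (fun z => -f z) K :=
  fun z hz => by rw [abs_neg]; exact h z hz

omit [DecidableEq V] in
theorem Nle.sub {K K' : ℝ} (h : Nle S q f K) (h' : Nle S q g K') :
    Nle S q (fun z => f z - g z) (K + K') := by
  simpa only [sub_eq_add_neg] using h.add h'.neg

theorem Near.mono {K K' : ℝ} (h : Near S q L f K) (hK : K ≤ K') : Near S q L f K' := by
  obtain ⟨I, a, b, c⟩ := h
  exact ⟨I, a, b, c.mono hK⟩

theorem Near.add {K K' : ℝ} (h : Near S q L f K) (h' : Near S q L g K') :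
    Near S q L (fun z => f z + g z) (K + K') := by
  obtain ⟨I, a, b, c⟩ := h
  obtain ⟨J, a', b', c'⟩ := h'
  refine ⟨fun z => I z + J z, a.add a', b.add b', fun z hz => ?_⟩
  have := c.add c' z hz
  beta_reduce at this ⊢
  rwa [show f z + g z - (I z + J z) = f z - I z + (g z - J z) by ring]

theorem Near.neg {K : ℝ} (h : Near S q L f K) : Near S q L (fun z => -f z) K := by
  obtain ⟨I, a, b, c⟩ := h
  refine ⟨fun z => -I z, a.neg, b.neg, fun z hz => ?_⟩
  have := c.neg z hz
  beta_reduce at this ⊢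
  rwa [show -f z - -I z = -(f z - I z) by ring]

theorem Near.sub {K K' : ℝ} (h : Near S q L f K) (h' : Near S q L g K') :
    Near S q L (fun z => f z - g z) (K + K') := by
  simpa only [sub_eq_add_neg] using h.add h'.neg

theorem Near.zsmul {K : ℝ} (h : Near S q L f K) (n : ℤ) :
    Near S q L (fun z => n * f z) (|(n : ℝ)| * K) := by
  obtain ⟨I, a, b, c⟩ := h
  refine ⟨fun z => n * I z, a.smul n, (IntV.const n).mul b, fun z hz => ?_⟩
  have := c.smul n z hz
  beta_reduce at this ⊢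
  rwa [← mul_sub]

theorem Near.of_nle {K : ℝ} (h : Nle S q f K) : Near S q L f K :=
  ⟨fun _ => 0, Fm.zero S q L, IntV.zero, by simpa only [sub_zero] using h⟩

theorem Near.of_int (hf : Fm S q L f) (hi : IntV f) : Near S q L f 0 :=
  ⟨f, hf, hi, fun z _ => by simp⟩

theorem ok_nar (h : S.Ok) {W : ℝ} (hW : W ≠ 0) : (nar S W).Ok :=
  h.gram (h.pd.smul (by positivity)) fun i j hij =>
    h.orth i j fun h0 => hij (by simp [h0])

theorem cen_nar (h : S.Cen) (W : ℝ) : (nar S W).Cen := h.gram _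

omit [DecidableEq V] in
theorem ln2_nar (W : ℝ) (z : ι → ℝ) : ln2 (nar S W) q z = W ^ 2 * ln2 S q z := qq_smul_mat _ _ _

theorem ln2_nonneg (h : S.Ok) (z : ι → ℝ) : 0 ≤ ln2 S q z := qq_nonneg h.pd.posSemidef _

end

end Vale.Agent.P057MA
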