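import Vale.Agent.P057ST.Cmp

/-!
Sheets of a lattice along an integer functional: unimodular completion inside a block,
complexity and quadratic form on the sheet.
-/

set_option linter.all false

open Matrix Finset
open scoped Real
open Vale.Agent.P267.H775 Vale.Agent.P057G Vale.Agent.P057ST

namespace Vale.Agent.P057MA

noncomputable section

variable {κ κ' κ'' A : Type*}

/-- a matrix that respects types -/
def Ort {R : Type*} [Zero R] (f : κ → A) (g : κ' → A) (M : Matrix κ κ' R) : Prop :=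
  ∀ i j, M i j ≠ 0 → f i = g j

theorem Ort.mul {R : Type*} [Semiring R] [Fintype κ'] {f : κ → A} {g : κ' → A} {h : κ'' → A}
    {M : Matrix κ κ' R} {N : Matrix κ' κ'' R} (hM : Ort f g M) (hN : Ort g h N) :
    Ort f h (M * N) := fun i j hij => by
  obtain ⟨l, _, hl⟩ := exists_ne_zero_of_sum_ne_zero hij
  exact (hM i l (left_ne_zero_of_mul hl)).trans (hN l j (right_ne_zero_of_mul hl))

theorem Ort.transpose {R : Type*} [Zero R] {f : κ → A} {g : κ' → A} {M : Matrix κ κ' R}
    (hM : Ort f g M) : Ort g f Mᵀ := fun i j hij => (hM j i hij).symm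

theorem Ort.mR {f : κ → A} {g : κ' → A} {M : Matrix κ κ' ℤ} (hM : Ort f g M) : Ort f g (mR M) :=
  fun i j hij => hM i j fun h => hij (by simp [P057ST.mR, h])

variable [Fintype κ] [DecidableEq κ]

theorem ort_one {R : Type*} [Zero R] [One R] (f : κ → A) : Ort f f (1 : Matrix κ κ R) :=
  fun i j hij => by
    by_contra h
    exact hij (one_apply_ne fun e => h (congrArg f e))

theorem Ort.inv {f : κ → A} {G : Matrix κ κ ℝ} (hG : Ort f f G) (hd : IsUnit G.det) :
    Ort f f G⁻¹ := by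
  classical
  have h1 : G * (of fun i j => if f i = f j then G⁻¹ i j else 0) = 1 := by
    ext i j
    rw [← mul_nonsing_inv G hd]
    by_cases h : f i = f j
    · refine sum_congr rfl fun l _ => ?_
      by_cases h0 : G i l = 0
      · simp [h0]
      · simp [← hG i l h0, h]
    · rw [mul_nonsing_inv G hd, one_apply_ne fun e => h (congrArg f e)]
      refine sum_eq_zero fun l _ => ?_
      by_cases h0 : G i l = 0
      · simp [h0]
      · simp [← hG i l h0, h]
  intro i j hij
  rw [inv_eq_right_inv h1] at hij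
  by_contra h
  exact hij (if_neg h)

/-- Euclid's algorithm inside a block -/
theorem exists_unimod (f : κ → A) (F : A) (n : ℕ) : ∀ k : κ → ℤ, ∑ i, (k i).natAbs ≤ n → k ≠ 0 →
    (∀ i, k i ≠ 0 → f i = F) → ∃ U U' : Matrix κ κ ℤ, U * U' = 1 ∧ Ort f f U ∧ Ort f f U' ∧
      ∃ j0 g, f j0 = F ∧ g ≠ 0 ∧ k ᵥ* U = Pi.single j0 g := by
  induction n with
  | zero =>
    intro k hk h0 _
    refine absurd (funext fun i => Int.natAbs_eq_zero.1 ?_) h0
    have := single_le_sum (f := fun i => (k i).natAbs) (fun _ _ => Nat.zero_le _) (mem_univ i)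
    omega
  | succ n ih =>
    intro k hk h0 hF
    obtain ⟨j, hj, hmin⟩ := exists_min_image (univ.filter fun i => k i ≠ 0)
      (fun i => (k i).natAbs) (by
        by_contra h
        exact h0 (funext fun a => by_contra fun h1 => h ⟨a, mem_filter.2 ⟨mem_univ _, h1⟩⟩))
    have hj0 := (mem_filter.1 hj).2
    by_cases h1 : ∀ i, i ≠ j → k i = 0
    · refine ⟨1, 1, mul_one _, ort_one f, ort_one f, j, k j, hF j hj0, hj0, ?_⟩
      funext i
      by_cases h : i = j
      · simp [h]
      · simp [h, h1 i h]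
    push Not at h1
    obtain ⟨i, hij, hi⟩ := h1
    have hle := hmin i (mem_filter.2 ⟨mem_univ _, hi⟩)
    obtain ⟨c, hc⟩ : ∃ c : ℤ, (k i + k j * c).natAbs < (k i).natAbs := by
      by_cases hs : (0 < k i ↔ 0 < k j)
      · exact ⟨-1, by omega⟩
      · exact ⟨1, by omega⟩
    have hT : ∀ c : ℤ, Ort f f (transvection j i c) := fun c a b hab => by
      by_contra h
      refine hab ?_
      rw [transvection, Matrix.add_apply, one_apply_ne fun e => h (congrArg f e), zero_add,
        single_apply_of_ne]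
      rintro ⟨rfl, rfl⟩
      exact h ((hF _ hj0).trans (hF _ hi).symm)
    have e : k ᵥ* transvection j i c = Function.update k i (k i + k j * c) := by
      funext a
      by_cases h : a = i
      · subst h
        simp [transvection, vecMul, dotProduct, single, one_apply, mul_add, sum_add_distrib]
      · simp [transvection, vecMul_add, vecMul, dotProduct, single, one_apply, h, Ne.symm h]
    obtain ⟨U, U', u1, u2, u3, j0, g, g1, g2, g3⟩ := ih (k ᵥ* transvection j i c) (by
        rw [e]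
        have a1 := sum_erase_add univ (fun a => (k a).natAbs) (mem_univ i)
        have a2 := sum_erase_add univ
          (fun a => (Function.update k i (k i + k j * c) a).natAbs) (mem_univ i)
        rw [sum_congr rfl fun a ha => by
          rw [Function.update_of_ne (ne_of_mem_erase ha)], Function.update_self] at a2
        omega)
      (fun h => hj0 (by
        have := congrFun h j
        rwa [e, Function.update_of_ne hij.symm] at this))
      (fun a ha => by
        by_cases h : a = i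
        · rw [h]; exact hF i hi
        · rw [e, Function.update_of_ne h] at ha; exact hF a ha)
    refine ⟨transvection j i c * U, U' * transvection j i (-c), ?_, (hT c).mul u2, u3.mul (hT _),
      j0, g, g1, g2, by rw [← vecMul_vecMul, g3]⟩
    rw [Matrix.mul_assoc, ← Matrix.mul_assoc U, u1, Matrix.one_mul,
      transvection_mul_transvection_same _ _ hij.symm, add_neg_cancel, transvection_zero]

theorem th_conj_le [Fintype κ'] [DecidableEq κ'] {G : Matrix κ κ ℝ} (hG : G.PosDef)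
    (L : Matrix κ κ' ℤ) (hL : Function.Injective (mR L).mulVec) :
    th ((mR L)ᵀ * G * mR L) 0 ≤ th G 0 := by
  refine Summable.tsum_le_tsum_of_inj (fun w => L *ᵥ w) (fun w w' h => ?_)
    (fun _ _ => (gs_pos _ _).le) (fun w => ?_) (summable_gs (posDef_conj hG _ hL) 0)
    (summable_gs hG 0)
  · have : toR w = toR w' := hL (by
      change mR L *ᵥ _ = mR L *ᵥ _
      rw [← toR_mulVec, ← toR_mulVec]; exact congrArg toR h)
    funext i
    exact Int.cast_injective (α := ℝ) (congrFun this i)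
  · rw [sub_zero, sub_zero, gs_conj, toR_mulVec]

theorem qq_pos {G : Matrix κ κ ℝ} (hG : G.PosDef) {x : κ → ℝ} (hx : x ≠ 0) : 0 < qq G x := by
  simpa [qq] using hG.dotProduct_mulVec_pos hx

theorem toR_ne {k : κ → ℤ} (hk : k ≠ 0) : toR k ≠ 0 := fun h =>
  hk (funext fun i => Int.cast_eq_zero.1 (congrFun h i))

/-- no integer vector is much shorter than the inverse of the theta value -/
theorem one_le_mul_th {H : Matrix κ κ ℝ} (hH : H.PosDef) {k : κ → ℤ} (hk : k ≠ 0) :
    1 ≤ √(qq H (toR k)) * th H 0 := by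
  let L : Matrix κ Unit ℤ := of fun i _ => k i
  have e : ∀ w, mR L *ᵥ w = w () • toR k := fun w => by
    funext i; simp [L, mR, mulVec, dotProduct, mul_comm]
  have hL : Function.Injective (mR L).mulVec := fun w w' h => by
    have h1 : w () • toR k = w' () • toR k := by rw [← e, ← e]; exact h
    funext u
    exact smul_left_injective ℝ (toR_ne hk) h1
  have h1 := (vol_le_th_zero (posDef_conj hH _ hL)).trans (th_conj_le hH L hL)
  have h2 : ((mR L)ᵀ * H * mR L).det = qq H (toR k) := by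
    have := qq_conj H (mR L) fun _ => 1
    rw [e, one_smul] at this
    rw [← this, det_unique]
    simp [qq, mulVec, dotProduct]
  rwa [vol, h2, inv_le_iff_one_le_mul₀' (Real.sqrt_pos.2 (qq_pos hH (toR_ne hk)))] at h1

theorem det_minor {M : Matrix κ κ ℝ} (hd : IsUnit M.det) (j0 : κ) :
    (M.submatrix (Subtype.val : {j // j ≠ j0} → κ) Subtype.val).det = M.det * M⁻¹ j0 j0 := by
  rw [Matrix.inv_def, Matrix.smul_apply, smul_eq_mul, ← mul_assoc, Ring.mul_inverse_cancel _ hd, one_mul,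
    adjugate_apply, twoBlockTriangular_det _ (fun j => j ≠ j0) fun i hi j hj => by
      rw [not_not.1 hi, updateRow_self, Pi.single_eq_of_ne hj]]
  have h1 : ((M.updateRow j0 (Pi.single j0 1)).toSquareBlockProp fun j => ¬j ≠ j0).det = 1 := by
    haveI : Subsingleton {j // ¬j ≠ j0} :=
      ⟨fun a b => Subtype.ext ((not_not.1 a.2).trans (not_not.1 b.2).symm)⟩
    rw [det_eq_elem_of_subsingleton _ ⟨j0, not_not.2 rfl⟩]
    simp [toSquareBlockProp]
  rw [h1, mul_one]
  congr 1
  ext i j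
  simp [toSquareBlockProp, updateRow_ne i.2]

/-- the data of a sheet decomposition along `k0` -/
structure Sh (f : κ → A) (j0 : κ) (k0 a : κ → ℤ) (L : Matrix κ {j // j ≠ j0} ℤ)
    (L' : Matrix {j // j ≠ j0} κ ℤ) : Prop where
  ka : k0 ⬝ᵥ a = 1
  kL : k0 ᵥ* L = 0
  La : L' *ᵥ a = 0
  LL : L' * L = 1
  dec : ∀ y : κ → ℝ, y = (toR k0 ⬝ᵥ y) • toR a + mR L *ᵥ (mR L' *ᵥ y)
  oa : ∀ i, a i ≠ 0 → f i = f j0
  ok : ∀ i, k0 i ≠ 0 → f i = f j0
  oL : Ort f (fun j => f j.1) L
  oL' : Ort (fun j => f j.1) f L'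
  vl : ∀ G : Matrix κ κ ℝ, G.PosDef →
    vol G = √(qq G⁻¹ (toR k0)) * vol ((mR L)ᵀ * G * mR L)

theorem exists_sh (f : κ → A) {F : A} {k : κ → ℤ} (h0 : k ≠ 0) (hF : ∀ i, k i ≠ 0 → f i = F) :
    ∃ (j0 : κ) (g : ℤ) (k0 a : κ → ℤ) (L : _) (L' : _), f j0 = F ∧ g ≠ 0 ∧ k = g • k0 ∧ Sh f j0 k0 a L L' := by
  obtain ⟨U, U', u1, u2, u3, j0, g, g1, g2, g3⟩ := exists_unimod f F _ k le_rfl h0 hF
  have u4 : U' * U = 1 := mul_eq_one_comm.1 u1
  refine ⟨j0, g, U' j0, fun i => U i j0, U.submatrix id Subtype.val, U'.submatrix Subtype.val id,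
    g1, g2, ?_, ?_, ?_, ?_, ?_, fun y => ?_, fun i hi => u2 i j0 hi, fun i hi => (u3 j0 i hi).symm,
    fun i j h => u2 i j h, fun i j h => u3 i j h, fun G hG => ?_⟩
  · rw [← vecMul_one k, ← u1, ← vecMul_vecMul, g3]
    funext i; simp [vecMul, dotProduct, Pi.single_apply]
  · exact (congrFun (congrFun u4 j0) j0).trans (one_apply_eq j0)
  · funext j
    exact (congrFun (congrFun u4 j0) j).trans (one_apply_ne j.2.symm)
  · funext j
    exact (congrFun (congrFun u4 j) j0).trans (one_apply_ne j.2)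
  · ext i j
    refine (congrFun (congrFun u4 i) j).trans ?_
    simp [one_apply, Subtype.ext_iff]
  · have h1 : y = mR U *ᵥ (mR U' *ᵥ y) := by rw [mulVec_mulVec, ← mR_mul, u1, mR_one, one_mulVec]
    funext i
    rw [congrFun h1 i]
    change ∑ j, mR U i j * (mR U' *ᵥ y) j = _
    rw [Fintype.sum_eq_add_sum_subtype_ne _ j0, mul_comm]
    rfl
  · have hi : Function.Injective (mR U).mulVec := fun x y h => by
      have := congrArg (mR U').mulVec h
      simpa only [mulVec_mulVec, ← mR_mul, u4, mR_one, one_mulVec] using this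
    have hA := posDef_conj hG _ hi
    have h1 := det_minor hA.det_pos.ne'.isUnit j0
    have h2 : ((mR U)ᵀ * G * mR U)⁻¹ = mR U' * G⁻¹ * (mR U')ᵀ := by
      refine inv_eq_right_inv ?_
      calc (mR U)ᵀ * G * mR U * (mR U' * G⁻¹ * (mR U')ᵀ)
          = (mR U)ᵀ * (G * (mR U * mR U') * G⁻¹) * (mR U')ᵀ := by simp only [Matrix.mul_assoc]
        _ = 1 := by
          rw [← mR_mul, u1, mR_one, Matrix.mul_one, mul_nonsing_inv _ hG.det_pos.ne'.isUnit,
            Matrix.mul_one, ← transpose_mul, ← mR_mul, u4, mR_one, transpose_one]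
    have h3 : (mR U' * G⁻¹ * (mR U')ᵀ) j0 j0 = qq G⁻¹ (toR (U' j0)) := by
      simp only [qq, Matrix.mul_assoc]
      rfl
    have h4 : ((mR U)ᵀ * G * mR U).submatrix (Subtype.val : {j // j ≠ j0} → κ)
        (Subtype.val : {j // j ≠ j0} → κ) = (mR (U.submatrix id Subtype.val))ᵀ * G *
          mR (U.submatrix id (Subtype.val : {j // j ≠ j0} → κ)) := rfl
    rw [h2, h3, h4] at h1
    have hk : U' j0 ≠ 0 := fun h => by
      have := (congrFun (congrFun u4 j0) j0).trans (one_apply_eq j0)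
      rw [Matrix.mul_apply] at this
      simp [h] at this
    have p := Real.sqrt_pos.2 (qq_pos hG.inv (toR_ne hk))
    rw [← vol_unimod u1 G, vol, vol, h1, Real.sqrt_mul hA.det_pos.le]
    field_simp

namespace Sh

variable {f : κ → A} {j0 : κ} {k0 a : κ → ℤ} {L : Matrix κ {j // j ≠ j0} ℤ}
  {L' : Matrix {j // j ≠ j0} κ ℤ} {G : Matrix κ κ ℝ}

theorem ne (h : Sh f j0 k0 a L L') : k0 ≠ 0 := fun h0 => by
  have := h.ka
  simp [h0] at this

theorem inj (h : Sh f j0 k0 a L L') : Function.Injective (mR L).mulVec := fun x y e => by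
  have := congrArg (mR L').mulVec e
  simpa only [mulVec_mulVec, ← mR_mul, h.LL, mR_one, one_mulVec] using this

theorem pd (h : Sh f j0 k0 a L L') (hG : G.PosDef) : ((mR L)ᵀ * G * mR L).PosDef :=
  posDef_conj hG _ h.inj

theorem dot_a (h : Sh f j0 k0 a L L') : toR k0 ⬝ᵥ toR a = 1 := by
  have := congrArg (Int.cast : ℤ → ℝ) h.ka
  simpa [dotProduct] using this

theorem dot_L (h : Sh f j0 k0 a L L') (w : {j // j ≠ j0} → ℝ) : toR k0 ⬝ᵥ mR L *ᵥ w = 0 := by
  rw [dotProduct_mulVec]
  have : toR k0 ᵥ* mR L = 0 := by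
    funext j
    have := congrArg (Int.cast : ℤ → ℝ) (congrFun h.kL j)
    simpa [vecMul, dotProduct, mR] using this
  rw [this, zero_dotProduct]

/-- the complexity of the sheet -/
theorem th_le (h : Sh f j0 k0 a L L') (hG : G.PosDef) :
    th ((mR L)ᵀ * G * mR L)⁻¹ 0 ≤ √(qq G⁻¹ (toR k0)) * th G⁻¹ 0 := by
  have h1 := th_conj_le hG L h.inj
  rw [th_zero_eq hG, th_zero_eq (h.pd hG), h.vl G hG] at h1
  refine le_of_mul_le_mul_left (h1.trans (le_of_eq (by ring))) (vol_pos (h.pd hG))

/-- the quadratic form on a sheet -/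
theorem qq_eq (h : Sh f j0 k0 a L L') (hG : G.PosDef) (x : κ → ℝ) (w : {j // j ≠ j0} → ℝ) :
    qq G (mR L *ᵥ w - x) = qq ((mR L)ᵀ * G * mR L)
      (w - ((mR L)ᵀ * G * mR L)⁻¹ *ᵥ ((mR L)ᵀ *ᵥ (G *ᵥ x))) +
        (toR k0 ⬝ᵥ x) ^ 2 / qq G⁻¹ (toR k0) := by
  have p := qq_pos hG.inv (toR_ne h.ne)
  set s := qq G⁻¹ (toR k0) with hs
  set v := ((toR k0 ⬝ᵥ x) / s) • (G⁻¹ *ᵥ toR k0) with hv
  have h1 : toR k0 ⬝ᵥ (x - v) = 0 := by
    rw [dotProduct_sub, hv, dotProduct_smul, smul_eq_mul]
    change _ - _ * s = 0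
    field_simp
    ring
  have h2 := h.dec (x - v)
  rw [h1, zero_smul, zero_add] at h2
  have h3 : (mR L)ᵀ *ᵥ (G *ᵥ v) = 0 := by
    rw [hv, mulVec_smul, mulVec_inv hG, mulVec_smul, mulVec_transpose]
    funext j
    have := h.dot_L (Pi.single j 1)
    rw [dotProduct_mulVec, dotProduct_single, mul_one] at this
    simp [this]
  have h4 : ((mR L)ᵀ * G * mR L)⁻¹ *ᵥ ((mR L)ᵀ *ᵥ (G *ᵥ x)) = mR L' *ᵥ (x - v) := by
    have : x = mR L *ᵥ (mR L' *ᵥ (x - v)) + v := by rw [← h2]; simp
    conv_lhs => rw [this]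
    rw [mulVec_add, mulVec_add, h3, add_zero, mulVec_mulVec _ G, mulVec_mulVec _ (mR L)ᵀ,
      ← Matrix.mul_assoc, inv_mulVec (h.pd hG)]
  have h5 : mR L *ᵥ w - x = mR L *ᵥ (w - mR L' *ᵥ (x - v)) - v := by
    rw [mulVec_sub, ← h2]; abel
  rw [h4, h5, qq_sub hG.1, bb_conj, h3, dotProduct_zero, qq_conj, hv, qq_smul, qq_inv hG, ← hs]
  field_simp
  ring

end Sh

end

end Vale.Agent.P057MA
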