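import Vale.Agent.P057MA.Scl
import Vale.Agent.P057HU.Hyp

/-!
Zariski density of smooth systems; short integer forms vanish.
-/

set_option linter.all false

open Matrix Finset
open scoped Real
open Vale.Agent.P267.H775 Vale.Agent.P057G Vale.Agent.P057HU

namespace Vale.Agent.P057MA

noncomputable section

variable {V ι : Type*} [DecidableEq ι] [Fintype ι] [DecidableEq V] {S : MS V ι}

/-- a function that is affine over `v` is determined by its constant term and slopes -/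
theorem aff_expand {q r : Finset ι} {f : (ι → ℝ) → ℝ} (ho : On q f) (h : Aff r f) (x y : ι → ℝ) :
    f (mix r x y) = f (mix r 0 y) + ∑ j ∈ q ∩ r, slp r f y j * x j := by
  have h1 := h.put_eq (s := q ∩ r) inter_subset_right (y := mix r 0 y)
    (fun i hi _ => mix_pos _ _ hi) fun j => x j
  have h2 : f (mix r x y) = f (put (q ∩ r) (fun j => x j) (mix r 0 y)) := ho _ _ fun i hi => by
    by_cases hr : i ∈ r
    · rw [mix_pos _ _ hr, put_pos _ _ (mem_inter.2 ⟨hi, hr⟩)]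
    · rw [mix_neg _ _ hr, put_neg _ _ fun h => hr (mem_inter.1 h).2, mix_neg _ _ hr]
  rw [h2, h1, mix_mix, ← sum_coe_sort (q ∩ r)]
  simp only [slp, mix_mix]

theorem Af.fix {q : Finset ι} {L : Finset V} {f : (ι → ℝ) → ℝ} (hf : Af S q L f) (v : V)
    (a : ι → ℝ) : Af S (q \ S.st v) L fun z => f (mix (S.st v) a z) :=
  ⟨fun z z' hz => hf.on _ _ fun i hi => by
    by_cases h : i ∈ S.st v
    · rw [mix_pos _ _ h, mix_pos _ _ h]
    · rw [mix_neg _ _ h, mix_neg _ _ h, hz i (Finset.mem_sdiff.2 ⟨hi, h⟩)],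
   fun w hw => aff_fix (hf.aff w hw) _ _⟩

theorem fibre_ne (h : S.Ok) (hc : S.Cen) {q : Finset ι} {v : V} {f : (ι → ℝ) → ℝ} (ho : On q f)
    (hf : Aff (S.st v) f) {y : ι → ℤ} (hy : S.wt (q \ S.st v) y ≠ 0) {a : ι → ℝ}
    (ha : f (mix (S.st v) a (toR y)) ≠ 0) (hs : th (S.fg q v (toR y))⁻¹ 0 ≤ 1 + 1 / 500) :
    vl S.G (q ∩ S.st v) / 6 ≤ ∑' x, gs (S.fg q v (toR y)) (toR x - S.fcn q v (toR y)) *
      (if f (toR (put (q ∩ S.st v) x y)) = 0 then 0 else 1) := by
  simp only [MS.aff_put q v hf hy]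
  rw [← h.vol_fg q v (toR y)]
  by_cases hk : S.fsl q v f (toR y) = 0
  · rw [aff_expand ho hf, sum_eq_zero, add_zero] at ha
    · simp only [hk, zero_dotProduct, add_zero, if_neg ha, mul_one, hc.fcn]
      have := vol_le_th_zero (h.fg_pos q v (toR y))
      have h2 := vol_pos (h.fg_pos q v (toR y))
      rw [th] at this
      linarith
    · intro j hj
      have := congrFun hk ⟨j, hj⟩
      rw [show slp (S.st v) f (toR y) j = 0 from this, zero_mul]
  · refine (hyperplane (h.fg_pos q v (toR y)) hs (S.fcn q v (toR y)) _ hk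
      (-f (mix (S.st v) 0 (toR y)))).trans
      (le_of_eq (tsum_congr fun x => ?_))
    congr 1
    exact if_congr ⟨fun h => by linarith, fun h => by linarith⟩ rfl rfl

/-- a non-zero multi-affine function is non-zero on a constant share of a smooth system -/
theorem zar' (h : S.Ok) (hc : S.Cen) {η : ℝ} (L : Finset V) :
    ∀ (q : Finset ι) (f : (ι → ℝ) → ℝ), Sat S.G q → (∀ i ∈ q, S.fc i ⊆ L) → Af S q L f →
      S.mass q ≤ 1 + η → 500 * η ≤ (1 / 7) ^ L.card → (∃ a, f a ≠ 0) →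
      (1 / 7) ^ L.card * vl S.G q ≤ ∑' z, S.wt q z * (if f (toR z) = 0 then 0 else 1) := by
  induction L using Finset.induction_on with
  | empty =>
    intro q f _ hq hf _ _ ⟨a, ha⟩
    obtain rfl : q = ∅ := eq_empty_of_forall_notMem fun i hi =>
      (hc.ne i).ne_empty (subset_empty.1 (hq i hi))
    have h1 : ∀ z, f (toR z) ≠ 0 := fun z => by
      rwa [hf.on (toR z) a fun i hi => absurd hi (notMem_empty i)]
    simp only [if_neg (h1 _), mul_one, card_empty, pow_zero, one_mul]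
    rw [(h.hasSum_wt ∅).tsum_eq, MS.mass_empty, one_mul]
  | insert v L hv ih =>
    intro q f hq hL hf hm hη ⟨a, ha⟩
    rw [card_insert_of_notMem hv] at hη ⊢
    have hq' := hq.sdiff h.pd.1 (h.sat_st v)
    have hm1 := h.one_le_mass hc hq'
    have hm2 := h.mass_mono hc hq' q hq sdiff_subset fun i hi j hj hd =>
      Finset.mem_sdiff.2 ⟨hj, fun h2 =>
        (Finset.mem_sdiff.1 hi).2 (S.mem_st.2 (hd.1 (S.mem_st.1 h2)))⟩
    have hp : (0 : ℝ) < (1 / 7) ^ L.card := by positivity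
    have h1 := ih (q \ S.st v) _ hq' (fun i hi => (subset_insert_iff_of_notMem fun h2 =>
      (Finset.mem_sdiff.1 hi).2 (S.mem_st.2 h2)).1 (hL i (Finset.mem_sdiff.1 hi).1))
      ((hf.fix v a).mono Subset.rfl (subset_insert _ _)) (hm2.trans hm)
      (by rw [pow_succ] at hη; linarith) ⟨a, by rwa [mix_self]⟩
    have h2 := h.hasSum_fibre q v (F := fun z => if f (toR z) = 0 then 0 else 1)
      (h.summable_re q (C := 1) fun z => by split_ifs <;> simp)
    have h3 := (h.summable_re (q \ S.st v) (C := 1)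
      (f := fun z => if f (mix (S.st v) a (toR z)) = 0 then 0 else 1) fun z => by
        split_ifs <;> simp).hasSum
    have p1 := vl_pos h.pd (q ∩ S.st v)
    have p2 := vl_pos h.pd (q \ S.st v)
    have h4 := (h3.sub ((h.hasSum_defect hc q v).mul_left 500)).mul_left (vl S.G (q ∩ S.st v) / 6)
    have h5 := hasSum_le (fun y => by
      by_cases hy : S.wt (q \ S.st v) y = 0
      · simp [hy]
      have w0 := MS.wt_nonneg (S := S) (q \ S.st v) y
      have t0 := one_le_th_zero (h.fg_pos q v (toR y)).inv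
      have s0 : 0 ≤ ∑' x, gs (S.fg q v (toR y)) (toR x - S.fcn q v (toR y)) *
          (if f (toR (put (q ∩ S.st v) x y)) = 0 then 0 else 1) :=
        tsum_nonneg fun x => mul_nonneg (gs_pos _ _).le (by split_ifs <;> simp)
      rw [← mul_assoc 500, mul_comm 500, mul_assoc, ← mul_sub, mul_left_comm]
      refine mul_le_mul_of_nonneg_left ?_ w0
      by_cases ha : f (mix (S.st v) a (toR y)) = 0
      · rw [if_pos ha]
        exact le_trans (mul_nonpos_of_nonneg_of_nonpos (by positivity) (by linarith)) s0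
      rw [if_neg ha]
      by_cases hs : th (S.fg q v (toR y))⁻¹ 0 ≤ 1 + 1 / 500
      · refine le_trans ?_ (fibre_ne h hc hf.on (hf.aff v (mem_insert_self _ _)) hy ha hs)
        exact mul_le_of_le_one_right (by positivity) (by linarith)
      · exact le_trans (mul_nonpos_of_nonneg_of_nonpos (by positivity) (by linarith)) s0) h4 h2
    refine le_trans ?_ h5
    rw [h.vl_st q v, pow_succ] at *
    have h6 : (S.mass q - S.mass (q \ S.st v)) * vl S.G (q \ S.st v) ≤ η * vl S.G (q \ S.st v) :=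
      mul_le_mul_of_nonneg_right (by linarith) p2.le
    have h7 := mul_le_mul_of_nonneg_right hη p2.le
    have h8 : (1 / 7) ^ L.card * (6 / 7) * vl S.G (q \ S.st v) ≤
        ∑' z, S.wt (q \ S.st v) z * (if f (mix (S.st v) a (toR z)) = 0 then 0 else 1) -
          500 * ((S.mass q - S.mass (q \ S.st v)) * vl S.G (q \ S.st v)) := by linarith
    refine le_trans (le_of_eq ?_) (mul_le_mul_of_nonneg_left h8 (by positivity))
    ring

theorem zar (h : S.Ok) (hc : S.Cen) {η : ℝ} (L : Finset V) (q : Finset ι) (f : (ι → ℝ) → ℝ)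
    (hq : Cls S q) : (∀ i ∈ q, S.fc i ⊆ L) → Af S q L f →
      S.mass q ≤ 1 + η → 500 * η ≤ (1 / 7) ^ L.card → (∃ a, f a ≠ 0) →
      (1 / 7) ^ L.card * vl S.G q ≤ ∑' z, S.wt q z * (if f (toR z) = 0 then 0 else 1) :=
  zar' h hc L q f (hq.sat h)

theorem tail_num (D n : ℕ) :
    Real.exp (-(π * (D + 2 * n + 2) / 2)) * √2 ^ D * 2 < (1 / 7) ^ n := by
  have h1 : √2 ≤ Real.exp (π / 2) := by
    have := Real.add_one_le_exp (π / 2)
    have h2 : √2 ≤ 2 := Real.sqrt_le_iff.2 ⟨by norm_num, by norm_num⟩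
    linarith [Real.pi_gt_three]
  have h2 : (7 : ℝ) ≤ Real.exp π := by
    have := Real.quadratic_le_exp_of_nonneg Real.pi_pos.le
    nlinarith [Real.pi_gt_three]
  have e : Real.exp (-(π * (D + 2 * n + 2) / 2)) =
      (Real.exp (π / 2) ^ D)⁻¹ * (Real.exp π ^ n)⁻¹ * (Real.exp π)⁻¹ := by
    rw [← Real.exp_nat_mul, ← Real.exp_nat_mul, ← Real.exp_neg, ← Real.exp_neg, ← Real.exp_neg,
      ← Real.exp_add, ← Real.exp_add]
    congr 1; ring
  have h3 : (Real.exp (π / 2) ^ D)⁻¹ * √2 ^ D ≤ 1 := by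
    rw [inv_mul_le_iff₀ (by positivity), mul_one]
    exact pow_le_pow_left₀ (Real.sqrt_nonneg _) h1 D
  have h4 : (Real.exp π ^ n)⁻¹ ≤ (1 / 7) ^ n := by
    rw [← inv_pow, one_div]
    exact pow_le_pow_left₀ (by positivity) (inv_anti₀ (by norm_num) h2) n
  have h5 : (Real.exp π)⁻¹ * 2 < 1 := by
    rw [inv_mul_lt_iff₀ (by positivity)]; linarith
  have h6 : (0 : ℝ) < (1 / 7) ^ n := by positivity
  calc _ = ((Real.exp (π / 2) ^ D)⁻¹ * √2 ^ D) * ((Real.exp π ^ n)⁻¹ * ((Real.exp π)⁻¹ * 2)) := by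
        rw [e]; ring
    _ ≤ 1 * ((1 / 7) ^ n * ((Real.exp π)⁻¹ * 2)) := by gcongr
    _ < _ := by rw [one_mul]; exact mul_lt_of_lt_one_right h6 h5

/-- a multi-affine function that vanishes at all integer points of moderate length vanishes -/
theorem zero_of_ball' (h : S.Ok) (hc : S.Cen) {q : Finset ι} (hq : Sat S.G q) {L : Finset V}
    (hL : ∀ i ∈ q, S.fc i ⊆ L) {f : (ι → ℝ) → ℝ} (hf : Af S q L f) {η : ℝ}
    (hm : S.mass q ≤ 1 + η) (hη : 500 * η ≤ (1 / 7) ^ L.card)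
    (h0 : ∀ z, ln2 S q (toR z) < q.card + 2 * L.card + 2 → f (toR z) = 0) (a : ι → ℝ) :
    f a = 0 := by
  by_contra ha
  have h1 := zar' h hc L q f hq hL hf hm hη ⟨a, ha⟩
  have h2 := tail_cen h hc q (q.card + 2 * L.card + 2)
  have h3 : ∑' z, S.wt q z * (if f (toR z) = 0 then 0 else 1) ≤
      ∑' z, S.wt q z * (if (q.card + 2 * L.card + 2 : ℝ) ≤ ln2 S q (toR z) then 1 else 0) := by
    refine Summable.tsum_le_tsum (fun z => mul_le_mul_of_nonneg_left ?_ (MS.wt_nonneg _ _))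
      (h.summable_re q (C := 1) fun z => by split_ifs <;> simp)
      (h.summable_re q (C := 1) fun z => by split_ifs <;> simp)
    split_ifs with a b b
    · simp
    · simp
    · simp
    · exact absurd (h0 z (not_le.1 b)) a
  have h4 := tail_num q.card L.card
  have h5 : (1 / 7 : ℝ) ^ L.card ≤ 1 := pow_le_one₀ (by norm_num) (by norm_num)
  have p := vl_pos h.pd q
  have h6 : S.mass q * vl S.G q ≤ 2 * vl S.G q := mul_le_mul_of_nonneg_right (by linarith) p.le
  have h7 := mul_le_mul_of_nonneg_left h6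
    (show 0 ≤ Real.exp (-(π * (q.card + 2 * L.card + 2) / 2)) * √2 ^ q.card by positivity)
  have h8 := mul_lt_mul_of_pos_right h4 p
  linarith

theorem zero_of_ball (h : S.Ok) (hc : S.Cen) {q : Finset ι} (hq : Cls S q) {L : Finset V}
    (hL : ∀ i ∈ q, S.fc i ⊆ L) {f : (ι → ℝ) → ℝ} (hf : Af S q L f) {η : ℝ}
    (hm : S.mass q ≤ 1 + η) (hη : 500 * η ≤ (1 / 7) ^ L.card)
    (h0 : ∀ z, ln2 S q (toR z) < q.card + 2 * L.card + 2 → f (toR z) = 0) (a : ι → ℝ) :
    f a = 0 := zero_of_ball' h hc (hq.sat h) hL hf hm hη h0 a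

omit [Fintype ι] [DecidableEq V] [DecidableEq ι] in
theorem sat_nar {q : Finset ι} (hq : Sat S.G q) (W : ℝ) : Sat (nar S W).G q := fun i j a b => by
  change W ^ 2 * S.G i j = 0
  rw [hq i j a b, mul_zero]

/-- short integer forms vanish -/
theorem uq' (h : S.Ok) (hc : S.Cen) {q : Finset ι} (hq : Sat S.G q) {L : Finset V}
    (hL : ∀ i ∈ q, S.fc i ⊆ L) {f : (ι → ℝ) → ℝ} (hf : Af S q L f) {v : V}
    (hv : Lin (S.st v) f) (hi : IntV f) {K W η : ℝ} (hK : Nle S q f K)
    (hW : (K + 1) * (q.card + 2 * L.card + 2) ≤ W) (hm : (nar S W).mass q ≤ 1 + η)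
    (hη : 500 * η ≤ (1 / 7) ^ L.card) (a : ι → ℝ) : f a = 0 := by
  have hK0 : 0 ≤ K := (abs_nonneg _).trans (hK (scl S (univ.biUnion S.fc) 0 0) (by
    have := ln2_scl (q := q) h hc (univ.biUnion S.fc) (t := 0) (s := 0) (fun i _ => by
      rw [inter_eq_left.2 (subset_biUnion_of_mem S.fc (mem_univ i)),
        zero_pow (hc.ne i).card_pos.ne']) 0
    nlinarith))
  set r : ℝ := q.card + 2 * L.card + 2 with hr
  have hr2 : 2 ≤ r := by
    have a1 : (0 : ℝ) ≤ q.card := Nat.cast_nonneg _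
    have a2 : (0 : ℝ) ≤ L.card := Nat.cast_nonneg _
    rw [hr]; linarith
  have hW1 : r ≤ W := by nlinarith
  have hW0 : 0 < W := by linarith
  refine zero_of_ball' (ok_nar h hW0.ne') (cen_nar hc W) (sat_nar hq W) hL ⟨hf.on, hf.aff⟩ hm hη
    (fun z hz => ?_) a
  rw [ln2_nar] at hz
  have h1 := hK.small h hc hv (ρ := r / W) (by positivity) ((div_le_one hW0).2 hW1) (z := toR z)
    (by rw [div_pow, le_div_iff₀ (by positivity)]; nlinarith)
  obtain ⟨n, hn⟩ := hi z
  rw [hn] at h1 ⊢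
  have h2 : K * (r / W) < 1 := by
    rw [← mul_div_assoc, div_lt_one hW0]; nlinarith
  have : |n| < 1 := by exact_mod_cast h1.trans_lt h2
  rw [Int.abs_lt_one_iff.1 this, Int.cast_zero]

theorem uq (h : S.Ok) (hc : S.Cen) {q : Finset ι} (hq : Cls S q) {L : Finset V}
    (hL : ∀ i ∈ q, S.fc i ⊆ L) {f : (ι → ℝ) → ℝ} (hf : Af S q L f) {v : V}
    (hv : Lin (S.st v) f) (hi : IntV f) {K W η : ℝ} (hK : Nle S q f K)
    (hW : (K + 1) * (q.card + 2 * L.card + 2) ≤ W) (hm : (nar S W).mass q ≤ 1 + η)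
    (hη : 500 * η ≤ (1 / 7) ^ L.card) (a : ι → ℝ) : f a = 0 :=
  uq' h hc (hq.sat h) hL hf hv hi hK hW hm hη a

theorem Smo.uq [Fintype V] (h : S.Ok) (hc : S.Cen) {q : Finset ι} (hq : Cls S q) {L : Finset V}
    (hL : ∀ i ∈ q, S.fc i ⊆ L) (hne : L.Nonempty) {f : (ι → ℝ) → ℝ} (hf : Fm S q L f)
    (hi : IntV f) {K W η : ℝ} (hK : Nle S q f K) {N : ℕ} (hs : Smo S q N W η) (hN : 1 ≤ N)
    (hW : (K + 1) * (q.card + 2 * L.card + 2) ≤ W) (hW0 : W ≠ 0)
    (hη : 500 * η ≤ (1 / 7) ^ L.card) (a : ι → ℝ) : f a = 0 :=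
  P057MA.uq h hc hq hL hf.af (hf.lin _ hne.choose_spec) hi hK hW (hs.mass h hc hq hN hW0) hη a

end

end Vale.Agent.P057MA
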