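import Vale.Agent.P057MA.Ext
import Vale.Agent.P057CV.Ker

/-!
Regularisation of a family of forms over a smooth centred system.
-/

set_option linter.all false

open Matrix Finset
open scoped Real
open Vale.Agent.P267.H775 Vale.Agent.P057G

namespace Vale.Agent.P057MA

noncomputable section

theorem Ls.sep {V ι κ κ' : Type*} [Fintype κ] [Fintype κ'] [DecidableEq κ'] {fn : κ → Finset V}
    {fn' : κ' → Finset V} {Gn : Matrix κ κ ℝ} {Gn' : Matrix κ' κ' ℝ} {x : (ι → ℝ) → κ → ℝ}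
    {pn' : (ι → ℝ) → κ' → ℝ} {P : (ι ⊕ κ' → ℝ) → ι ⊕ κ → ℝ} {L : Matrix κ κ' ℤ}
    {L' : Matrix κ' κ ℤ} {J : (ι → ℝ) → κ → ℝ} (h : Ls fn fn' Gn Gn' x pn' P L L' J)
    (hs : ∀ k : κ → ℤ, k ≠ 0 → 1 ≤ qq Gn (toR k)) (k : κ' → ℤ) (hk : k ≠ 0) :
    1 ≤ qq Gn' (toR k) := by
  rw [h.gram, qq_conj, ← P057ST.toR_mulVec]
  refine hs _ fun e => hk ?_
  rw [← one_mulVec k, ← h.inv, ← mulVec_mulVec, e, mulVec_zero]

/-- finitely many forms become integer forms up to a small error on a smooth extension -/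
theorem ext_forms2 (n : ℕ) : ∃ c : ℕ, ∀ {V ι κ : Type} [DecidableEq V] [Fintype V] [DecidableEq ι]
    [Fintype ι] [DecidableEq κ] [Fintype κ] {S : MS V ι} {fn : κ → Finset V}
    {T : (ι → ℝ) → κ → ℝ} {B0 : Finset V} {N : ℕ} {Y Z : ℝ}, Fintype.card V ≤ n → S.Ok → S.Cen →
    (∀ j, Fm S (fce S (fn j)) (fn j) fun z => T z j) → (∀ j, (fn j ∩ B0).Nonempty) → (c : ℝ) ≤ Z →
    1 ≤ Y → (Fintype.card κ : ℝ) ≤ Y → 3 * Y ^ 2 ≤ Z → (Fintype.card ι : ℝ) ≤ Real.exp Z →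
    ((N + 1 : ℝ)) ^ n ≤ Z → Smo S univ (max N c) (Real.exp (Z ^ 7)) (Real.exp (-Z ^ 7)) →
    ∃ (κ' : Type) (_ : Fintype κ') (_ : DecidableEq κ') (e : κ' → κ) (d : ℕ) (lam : ℝ)
      (Gn : Matrix κ' κ' ℝ) (pn : (ι → ℝ) → κ' → ℝ) (M : (ι ⊕ κ' → ℝ) → κ → ℝ),
      Function.Injective e ∧ 0 < d ∧ (d : ℝ) ≤ lam ∧ lam ≤ Real.exp (Z ^ 6) ∧
      TopOk (dil S B0 lam) (fun j => fn (e j)) Gn pn ∧ th Gn⁻¹ 0 ≤ Real.exp (3 * Z ^ 2) ∧
      Smo (top (dil S B0 lam) (fun j => fn (e j)) Gn pn) univ N (Real.exp Z) (Real.exp (-Z)) ∧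
      Mor (top (dil S B0 lam) (fun j => fn (e j)) Gn pn) S
        (fun z => scl S B0 d (z ∘ Sum.inl)) ∧ (∀ k : κ' → ℤ, k ≠ 0 → 1 ≤ qq Gn (toR k)) ∧
      ∀ j, Fm (top (dil S B0 lam) (fun j => fn (e j)) Gn pn)
          (fce (top (dil S B0 lam) (fun j => fn (e j)) Gn pn) (fn j)) (fn j) (fun z => M z j) ∧
        IntV (fun z => M z j) ∧
        Nle (top (dil S B0 lam) (fun j => fn (e j)) Gn pn) univ
          (fun z => T (scl S B0 d (z ∘ Sum.inl)) j - M z j) (Real.exp (-Y)) := by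
  obtain ⟨c, hc⟩ := ext2 n
  refine ⟨c, ?_⟩
  intro V ι κ _ _ _ _ _ _ S fn T B0 N Y Z hV h h' hT hb hZ hY hκ hYZ hι hN hs
  have e1 : 1 ≤ Real.exp Y := Real.one_le_exp (by linarith)
  have ht : TopOk S fn (Real.exp Y ^ 2 • (1 : Matrix κ κ ℝ)) T :=
    ⟨PosDef.one.smul (by positivity), fun i j hij => ort_one (R := ℝ) fn i j fun e =>
      hij (by simp [e]), fun j => (hb j).mono inter_subset_left, hT⟩
  have h1 := P057CV.th_one_inv_le (κ := κ) e1 (b := Real.exp Y) (by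
    nlinarith [Real.add_one_le_exp Y]) (by positivity)
  obtain ⟨κ', _, _, e, d, lam, G, p, P, d1, d2, d3, d4, d5, d6, d7, d8, d9, L, L', J, d10⟩ :=
    hc hV h h' ht hb hZ (by nlinarith) hι hN (h1.trans ((mul_le_exp (by norm_num)
      (pow_le_exp (by positivity) (mul_le_exp (by positivity) le_rfl le_rfl) (by linarith) hκ
        le_rfl) two_le_exp).trans (Real.exp_le_exp.2 (by nlinarith)))) hs
  refine ⟨κ', inferInstance, inferInstance, e, d, lam, G, p, fun z j => P z (Sum.inr j), d1, d2,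
    d3, d4, d5, d6, d9, ⟨fun i => ?_, fun i => ?_, fun z hz => ?_⟩, d10.sep fun k hk => ?_,
    fun j => ⟨d7.fm (Sum.inr j), d7.int (Sum.inr j), fun z hz => ?_⟩⟩
  · simp only [← d8]; exact d7.fm (Sum.inl i)
  · simp only [← d8]; exact d7.int (Sum.inl i)
  · have := d7.ball z hz
    rw [ln2_top, d8] at this
    linarith [qq_nonneg ht.pd.posSemidef (P z ∘ Sum.inr - T (scl S B0 d (z ∘ Sum.inl)))]
  · obtain ⟨j, hj⟩ := Function.ne_iff.1 hk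
    have a1 := P057CV.sq_le_qq_one (toR k) j
    have a2 : (1 : ℝ) ≤ toR k j ^ 2 := by
      rw [toR_apply]
      exact_mod_cast (one_le_sq_iff_one_le_abs (k j)).2 (Int.one_le_abs hj)
    rw [qq_smul_mat]
    exact one_le_mul_of_one_le_of_one_le (one_le_pow₀ e1) (a2.trans a1)
  · have a1 := d7.ball z hz
    rw [ln2_top, d8, qq_smul_mat] at a1
    have a2 := P057CV.sq_le_qq_one (P z ∘ Sum.inr - T (scl S B0 d (z ∘ Sum.inl))) j
    have a3 := ln2_nonneg (q := univ) h (scl S B0 d (z ∘ Sum.inl))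
    rw [abs_sub_comm, Real.exp_neg]
    refine abs_le.2 (abs_le_of_sq_le_sq' ?_ (by positivity))
    rw [inv_pow, ← one_div, le_div_iff₀ (by positivity)]
    have a4 := mul_le_mul_of_nonneg_left a2 (sq_nonneg (Real.exp Y))
    simp only [Pi.sub_apply, Function.comp] at a4
    linarith

theorem ext_forms (n : ℕ) : ∃ c : ℕ, ∀ {V ι κ : Type} [DecidableEq V] [Fintype V] [DecidableEq ι]
    [Fintype ι] [DecidableEq κ] [Fintype κ] {S : MS V ι} {fn : κ → Finset V}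
    {T : (ι → ℝ) → κ → ℝ} {B0 : Finset V} {N : ℕ} {Y Z : ℝ}, Fintype.card V ≤ n → S.Ok → S.Cen →
    (∀ j, Fm S (fce S (fn j)) (fn j) fun z => T z j) → (∀ j, (fn j ∩ B0).Nonempty) → (c : ℝ) ≤ Z →
    1 ≤ Y → (Fintype.card κ : ℝ) ≤ Y → 3 * Y ^ 2 ≤ Z → (Fintype.card ι : ℝ) ≤ Real.exp Z →
    ((N + 1 : ℝ)) ^ n ≤ Z → Smo S univ (max N c) (Real.exp (Z ^ 7)) (Real.exp (-Z ^ 7)) →
    ∃ (κ' : Type) (_ : Fintype κ') (_ : DecidableEq κ') (e : κ' → κ) (d : ℕ) (lam : ℝ)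
      (Gn : Matrix κ' κ' ℝ) (pn : (ι → ℝ) → κ' → ℝ) (M : (ι ⊕ κ' → ℝ) → κ → ℝ),
      Function.Injective e ∧ 0 < d ∧ (d : ℝ) ≤ lam ∧ lam ≤ Real.exp (Z ^ 6) ∧
      TopOk (dil S B0 lam) (fun j => fn (e j)) Gn pn ∧ th Gn⁻¹ 0 ≤ Real.exp (3 * Z ^ 2) ∧
      Smo (top (dil S B0 lam) (fun j => fn (e j)) Gn pn) univ N (Real.exp Z) (Real.exp (-Z)) ∧
      Mor (top (dil S B0 lam) (fun j => fn (e j)) Gn pn) S
        (fun z => scl S B0 d (z ∘ Sum.inl)) ∧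
      ∀ j, Fm (top (dil S B0 lam) (fun j => fn (e j)) Gn pn)
          (fce (top (dil S B0 lam) (fun j => fn (e j)) Gn pn) (fn j)) (fn j) (fun z => M z j) ∧
        IntV (fun z => M z j) ∧
        Nle (top (dil S B0 lam) (fun j => fn (e j)) Gn pn) univ
          (fun z => T (scl S B0 d (z ∘ Sum.inl)) j - M z j) (Real.exp (-Y)) := by
  obtain ⟨c, hc⟩ := ext_forms2 n
  refine ⟨c, fun a1 a2 a3 a4 a5 a6 a7 a8 a9 a10 a11 a12 => ?_⟩
  obtain ⟨κ', _, _, e, d, lam, G, p, M, d1, d2, d3, d4, d5, d6, d7, d8, -, d9⟩ :=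
    hc a1 a2 a3 a4 a5 a6 a7 a8 a9 a10 a11 a12
  exact ⟨κ', inferInstance, inferInstance, e, d, lam, G, p, M, d1, d2, d3, d4, d5, d6, d7, d8, d9⟩

end

end Vale.Agent.P057MA
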