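import Vale.Agent.P057MA.Uq
import Vale.Agent.P057HU.Gau

/-!
Position coordinates: the inverse of `z ↦ z - p z`; forms are bounded.
-/

set_option linter.all false

open Matrix Finset
open scoped Real
open Vale.Agent.P267.H775 Vale.Agent.P057G Vale.Agent.P057HU

namespace Vale.Agent.P057MA

noncomputable section

variable {V ι : Type*} [DecidableEq ι] [Fintype ι] [DecidableEq V] {S : MS V ι}

/-- the real positions -/
def pos (S : MS V ι) (z : ι → ℝ) : ι → ℝ := z - S.p z

def itr (S : MS V ι) (u : ι → ℝ) : ℕ → ι → ℝ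
  | 0 => u
  | n + 1 => u + S.p (itr S u n)

/-- the point with given positions -/
def lift (S : MS V ι) (u : ι → ℝ) : ι → ℝ := itr S u (univ.sup S.lv + 1)

/-- what a coordinate depends on -/
def dps (S : MS V ι) (i : ι) : Finset ι := fce S (S.fc i) ∩ low S (S.lv i)

theorem mem_dps {i j : ι} : j ∈ dps S i ↔ S.Dep i j := by
  simp only [dps, mem_inter, mem_fce, mem_low, MS.Dep]

theorem cls_dps (i : ι) : Cls S (dps S i) := (cls_fce S _).inter (cls_low S _)

theorem on_p (h : S.Ok) (i : ι) : On (dps S i) fun z => S.p z i :=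
  fun z z' hz => h.loc i z z' fun j hj => hz j (mem_dps.2 hj)

theorem Cls.on_p (h : S.Ok) {q : Finset ι} (hq : Cls S q) {i : ι} (hi : i ∈ q) :
    On q fun z => S.p z i := (P057MA.on_p h i).mono fun j hj => hq.dep i hi j (mem_dps.1 hj)

theorem p_indep (h : S.Ok) {v : V} {i : ι} (hi : v ∉ S.fc i) (x y : ι → ℝ) :
    S.p (mix (S.st v) x y) i = S.p y i :=
  h.loc i _ _ fun _ hj => mix_neg _ _ fun h2 => hi (hj.1 (S.mem_st.1 h2))

theorem aff_p (h : S.Ok) (v : V) (i : ι) : Aff (S.st v) fun z => S.p z i := by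
  by_cases hi : v ∈ S.fc i
  · exact h.aff v i hi
  · exact aff_of_indep (p_indep h hi)

theorem af_p (h : S.Ok) (i : ι) (L : Finset V) : Af S (dps S i) L fun z => S.p z i :=
  ⟨on_p h i, fun v _ => aff_p h v i⟩

theorem fm_p (h : S.Ok) (hc : S.Cen) (i : ι) : Fm S (dps S i) (S.fc i) fun z => S.p z i :=
  ⟨on_p h i, fun _ hv => h.lin hc hv⟩

theorem itr_pos (h : S.Ok) (z : ι → ℝ) (n : ℕ) : ∀ i, S.lv i < n → itr S (pos S z) n i = z i := by
  induction n with
  | zero => intro i hi; omega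
  | succ n ih =>
    intro i hi
    rw [itr, Pi.add_apply, h.loc i _ z fun j hj => ih j (by have := hj.2; omega)]
    simp [pos]

theorem itr_stab (h : S.Ok) (u : ι → ℝ) (n : ℕ) :
    ∀ i, S.lv i < n → itr S u (n + 1) i = itr S u n i := by
  induction n with
  | zero => intro i hi; omega
  | succ n ih =>
    intro i hi
    change u i + S.p (itr S u (n + 1)) i = u i + S.p (itr S u n) i
    rw [h.loc i _ _ fun j hj => ih j (by have := hj.2; omega)]

theorem lv_lt (i : ι) : S.lv i < univ.sup S.lv + 1 :=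
  Nat.lt_succ_of_le (le_sup (f := S.lv) (mem_univ i))

theorem lift_pos (h : S.Ok) (z : ι → ℝ) : lift S (pos S z) = z :=
  funext fun i => itr_pos h z _ i (lv_lt i)

theorem lift_eq (h : S.Ok) (u : ι → ℝ) : lift S u = u + S.p (lift S u) :=
  funext fun i => (itr_stab h u _ i (lv_lt i)).symm

theorem pos_lift (h : S.Ok) (u : ι → ℝ) : pos S (lift S u) = u := by
  rw [pos, sub_eq_iff_eq_add]; exact lift_eq h u

theorem on_itr (h : S.Ok) {q : Finset ι} (hq : Cls S q) (n : ℕ) :
    ∀ i ∈ q, On q fun u => itr S u n i := by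
  induction n with
  | zero => exact fun i hi => On.coord hi
  | succ n ih =>
    intro i hi u u' hu
    change u i + S.p (itr S u n) i = u' i + S.p (itr S u' n) i
    rw [hu i hi, h.loc i _ _ fun j hj => ih j (hq.dep i hi j hj) u u' hu]

theorem on_lift (h : S.Ok) {q : Finset ι} (hq : Cls S q) {i : ι} (hi : i ∈ q) :
    On q fun u => lift S u i := on_itr h hq _ i hi

theorem itr_indep (h : S.Ok) {v : V} (n : ℕ) {i : ι} (hi : i ∉ S.st v) (x y : ι → ℝ) :
    itr S (mix (S.st v) x y) n i = itr S y n i :=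
  (on_itr h ((cls_univ S).sdiff_st v) n i (Finset.mem_sdiff.2 ⟨mem_univ _, hi⟩)).indep
    (fun _ hj => (Finset.mem_sdiff.1 hj).2) x y

theorem aff_itr (h : S.Ok) (v : V) (n : ℕ) : ∀ i, Aff (S.st v) fun u => itr S u n i := by
  induction n with
  | zero => exact fun i => aff_coord _ i
  | succ n ih =>
    intro i
    exact aff_add (aff_coord _ i) (aff_comp (on_univ _) (aff_p h v i) (fun j _ _ => ih j)
      fun j _ hj => itr_indep h n hj)

theorem lin_itr (h : S.Ok) (hc : S.Cen) (v : V) (n : ℕ) :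
    ∀ i ∈ S.st v, Lin (S.st v) fun u => itr S u n i := by
  induction n with
  | zero => exact fun i hi => lin_coord hi
  | succ n ih =>
    intro i hi
    have := lin_comb (lin_coord hi) (lin_comp (on_univ _) (h.lin hc (S.mem_st.1 hi))
      (P := fun u => itr S u n) (fun j _ hj => ih j hj) fun j _ hj => itr_indep h n hj) 1 1
    simp only [one_mul] at this
    exact this

theorem aff_lift (h : S.Ok) {v : V} {f : (ι → ℝ) → ℝ} (hf : Aff (S.st v) f) :
    Aff (S.st v) fun u => f (lift S u) :=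
  aff_comp (on_univ _) hf (fun j _ _ => aff_itr h v _ j) fun _ _ hj => itr_indep h _ hj

theorem lin_lift (h : S.Ok) (hc : S.Cen) {v : V} {f : (ι → ℝ) → ℝ} (hf : Lin (S.st v) f) :
    Lin (S.st v) fun u => f (lift S u) :=
  lin_comp (on_univ _) hf (fun j _ hj => lin_itr h hc v _ j hj) fun _ _ hj => itr_indep h _ hj

theorem On.lift (h : S.Ok) {q : Finset ι} (hq : Cls S q) {f : (ι → ℝ) → ℝ} (hf : On q f) :
    On q fun u => f (lift S u) := fun u u' hu => hf _ _ fun _ hi => on_lift h hq hi u u' hu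

theorem Af.lift (h : S.Ok) {q : Finset ι} (hq : Cls S q) {L : Finset V} {f : (ι → ℝ) → ℝ}
    (hf : Af S q L f) : Af S q L fun u => f (lift S u) :=
  ⟨hf.on.lift h hq, fun v hv => aff_lift h (hf.aff v hv)⟩

theorem Fm.lift (h : S.Ok) (hc : S.Cen) {q : Finset ι} (hq : Cls S q) {L : Finset V}
    {f : (ι → ℝ) → ℝ} (hf : Fm S q L f) : Fm S q L fun u => f (lift S u) :=
  ⟨hf.on.lift h hq, fun v hv => lin_lift h hc (hf.lin v hv)⟩

theorem pos_indep (h : S.Ok) {v : V} {i : ι} (hi : i ∉ S.st v) (x y : ι → ℝ) :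
    pos S (mix (S.st v) x y) i = pos S y i := by
  simp only [pos, Pi.sub_apply, mix_neg _ _ hi, p_indep h fun h2 => hi (S.mem_st.2 h2)]

theorem aff_pos (h : S.Ok) {v : V} {f : (ι → ℝ) → ℝ} (hf : Aff (S.st v) f) :
    Aff (S.st v) fun z => f (pos S z) :=
  aff_comp (on_univ _) hf (fun j _ _ => (aff_coord _ j).sub (aff_p h v j))
    fun _ _ hj => pos_indep h hj

theorem lin_pos (h : S.Ok) (hc : S.Cen) {v : V} {f : (ι → ℝ) → ℝ} (hf : Lin (S.st v) f) :
    Lin (S.st v) fun z => f (pos S z) :=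
  lin_comp (on_univ _) hf (fun j _ hj => by
      have := lin_comb (lin_coord hj) (h.lin hc (S.mem_st.1 hj)) 1 (-1)
      simp only [one_mul, neg_mul, ← sub_eq_add_neg] at this
      exact this)
    fun _ _ hj => pos_indep h hj

theorem On.pos (h : S.Ok) {q : Finset ι} (hq : Cls S q) {f : (ι → ℝ) → ℝ} (hf : On q f) :
    On q fun z => f (pos S z) := fun z z' hz => hf _ _ fun i hi => by
  simp only [P057MA.pos, Pi.sub_apply, hz i hi, hq.on_p h hi z z' hz]

theorem Af.pos (h : S.Ok) {q : Finset ι} (hq : Cls S q) {L : Finset V} {f : (ι → ℝ) → ℝ}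
    (hf : Af S q L f) : Af S q L fun z => f (pos S z) :=
  ⟨hf.on.pos h hq, fun v hv => aff_pos h (hf.aff v hv)⟩

theorem Fm.pos (h : S.Ok) (hc : S.Cen) {q : Finset ι} (hq : Cls S q) {L : Finset V}
    {f : (ι → ℝ) → ℝ} (hf : Fm S q L f) : Fm S q L fun z => f (pos S z) :=
  ⟨hf.on.pos h hq, fun v hv => lin_pos h hc (hf.lin v hv)⟩

theorem ln2_eq (q : Finset ι) (z : ι → ℝ) : ln2 S q z = qq S.G (msk q (pos S z)) := rfl

theorem ln2_lift (h : S.Ok) (q : Finset ι) (u : ι → ℝ) :
    ln2 S q (lift S u) = qq S.G (msk q u) := by rw [ln2_eq, pos_lift h]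

theorem nle_iff (h : S.Ok) {q : Finset ι} {f : (ι → ℝ) → ℝ} {K : ℝ} :
    Nle S q f K ↔ ∀ u, qq S.G (msk q u) ≤ 1 → |f (lift S u)| ≤ K :=
  ⟨fun hf u hu => hf _ (by rwa [ln2_lift h]), fun hf z hz => by
    simpa only [lift_pos h] using hf (pos S z) hz⟩

theorem qq_msk_le {G : Matrix ι ι ℝ} (hG : G.PosDef) {q q' : Finset ι} (hq : Sat G q')
    (hqq : q' ⊆ q) (u : ι → ℝ) : qq G (msk q' u) ≤ qq G (msk q u) := by
  rw [qq_msk_split hG.1 hq q, inter_eq_right.2 hqq]
  linarith [qq_nonneg hG.posSemidef (msk (q \ q') u)]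

theorem ln2_mono (h : S.Ok) {q q' : Finset ι} (hq : Cls S q') (hqq : q' ⊆ q) (z : ι → ℝ) :
    ln2 S q' z ≤ ln2 S q z := qq_msk_le h.pd (hq.sat h) hqq _

theorem Nle.up (h : S.Ok) {q q' : Finset ι} (hq : Cls S q') (hqq : q' ⊆ q) {f : (ι → ℝ) → ℝ}
    {K : ℝ} (hf : Nle S q' f K) : Nle S q f K := fun z hz => hf z ((ln2_mono h hq hqq z).trans hz)

theorem Nle.down (h : S.Ok) {q q' : Finset ι} (hq : Cls S q') (hqq : q' ⊆ q) {f : (ι → ℝ) → ℝ}
    (ho : On q' f) {K : ℝ} (hf : Nle S q f K) : Nle S q' f K := fun z hz => by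
  have h1 := (nle_iff h).1 hf (msk q' (pos S z)) (by
    have : msk q (msk q' (pos S z)) = msk q' (pos S z) := by
      funext i
      by_cases hi : i ∈ q
      · exact msk_pos _ hi
      · rw [msk_neg _ hi, msk_neg _ fun h2 => hi (hqq h2)]
    rw [this]; exact hz)
  have h2 := ho.lift h hq (msk q' (pos S z)) (pos S z) fun i hi => msk_pos _ hi
  beta_reduce at h2
  rwa [h2, lift_pos h] at h1

theorem Near.up (h : S.Ok) {q q' : Finset ι} (hq : Cls S q') (hqq : q' ⊆ q) {L : Finset V}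
    {f : (ι → ℝ) → ℝ} {K : ℝ} (hf : Near S q' L f K) : Near S q L f K := by
  obtain ⟨I, a, b, c⟩ := hf
  exact ⟨I, a.mono hqq Subset.rfl, b, c.up h hq hqq⟩

/-- multi-affine functions are continuous -/
theorem Af.continuous (hne : ∀ i, (S.fc i).Nonempty) (L : Finset V) :
    ∀ (q : Finset ι) (f : (ι → ℝ) → ℝ), (∀ i ∈ q, S.fc i ⊆ L) → Af S q L f → Continuous f := by
  induction L using Finset.induction_on with
  | empty =>
    intro q f hq hf
    have : f = fun _ => f 0 := funext fun z => hf.on _ _ fun i hi =>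
      absurd (subset_empty.1 (hq i hi)) (hne i).ne_empty
    rw [this]; exact continuous_const
  | insert v L hv ih =>
    intro q f hq hf
    have h1 : ∀ a, Continuous fun z => f (mix (S.st v) a z) := fun a =>
      ih (q \ S.st v) _ (fun i hi => (subset_insert_iff_of_notMem fun h2 =>
        (Finset.mem_sdiff.1 hi).2 (S.mem_st.2 h2)).1 (hq i (Finset.mem_sdiff.1 hi).1))
        ((hf.fix v a).mono Subset.rfl (subset_insert _ _))
    have : f = fun z => f (mix (S.st v) 0 z) + ∑ j ∈ q ∩ S.st v,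
        (f (mix (S.st v) (Pi.single j 1) z) - f (mix (S.st v) 0 z)) * z j := funext fun z => by
      have := aff_expand hf.on (hf.aff v (mem_insert_self _ _)) z z
      rwa [mix_self] at this
    rw [this]
    exact (h1 0).add (continuous_finset_sum _ fun j _ =>
      ((h1 _).sub (h1 0)).mul (continuous_apply j))

omit [DecidableEq V] in
theorem exists_norm_le {G : Matrix ι ι ℝ} (hG : G.PosDef) :
    ∃ C : ℝ, ∀ u, qq G u ≤ 1 → ‖u‖ ≤ C := by
  obtain ⟨T, hT, hn⟩ := exists_T hG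
  obtain ⟨C, _, hC⟩ := T.exists_antilipschitzWith (LinearMap.ker_eq_bot.2 hT)
  refine ⟨C, fun u hu => ?_⟩
  have := hC.le_mul_dist u 0
  rw [dist_zero_right, map_zero, dist_zero_right, hn] at this
  exact this.trans (mul_le_of_le_one_right C.2 (Real.sqrt_le_one.2 hu))

/-- multi-affine functions are bounded on the unit ball -/
theorem Af.bdd (h : S.Ok) (hne : ∀ i, (S.fc i).Nonempty) {q : Finset ι} (hq : Cls S q)
    {L : Finset V} (hL : ∀ i ∈ q, S.fc i ⊆ L) {f : (ι → ℝ) → ℝ} (hf : Af S q L f) :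
    ∃ K, Nle S q f K := by
  have hg := hf.lift h hq
  obtain ⟨C, hC⟩ := exists_norm_le h.pd
  obtain ⟨K, hK⟩ := (isCompact_closedBall (0 : ι → ℝ) C).exists_bound_of_continuousOn
    (Af.continuous hne L q _ hL hg).continuousOn
  refine ⟨K, (nle_iff h).2 fun u hu => ?_⟩
  have h2 := hg.on u (msk q u) fun i hi => (msk_pos _ hi).symm
  beta_reduce at h2
  rw [h2]
  exact hK _ (mem_closedBall_zero_iff.2 (hC _ hu))

end

end Vale.Agent.P057MA
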