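import Vale.Agent.P057MA.Blow

/-!
Composition of multi-affine maps, scaling of centred systems, tails.
-/

set_option linter.all false

open Matrix Finset
open scoped Real
open Vale.Agent.P267.H775 Vale.Agent.P057G

namespace Vale.Agent.P057MA

noncomputable section

variable {V ι ι' : Type*} [DecidableEq ι] [DecidableEq ι']

theorem aff_const (r : Finset ι) (c : ℝ) : Aff r fun _ => c :=
  fun _ => ⟨fun _ _ => by simp, fun _ _ => by simp⟩

theorem aff_coord (r : Finset ι) (j : ι) : Aff r fun z => z j := fun y => by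
  by_cases h : j ∈ r
  · simp only [mix_pos _ _ h]
    exact ⟨fun _ _ => by simp, fun _ _ => by simp⟩
  · simp only [mix_neg _ _ h]
    exact ⟨fun _ _ => by simp, fun _ _ => by simp⟩

theorem lin_coord {r : Finset ι} {j : ι} (h : j ∈ r) : Lin r fun z => z j :=
  (aff_coord r j).lin fun y => mix_pos _ _ h

theorem aff_add {r : Finset ι} {f g : (ι → ℝ) → ℝ} (hf : Aff r f) (hg : Aff r g) :
    Aff r fun z => f z + g z := by simpa only [one_mul] using aff_comb hf hg 1 1

theorem aff_smul {r : Finset ι} {f : (ι → ℝ) → ℝ} (hf : Aff r f) (a : ℝ) :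
    Aff r fun z => a * f z := by simpa only [zero_mul, add_zero] using aff_comb hf hf a 0

theorem aff_sum {r : Finset ι} {κ : Type*} (s : Finset κ) {f : κ → (ι → ℝ) → ℝ}
    (h : ∀ k ∈ s, Aff r (f k)) : Aff r fun z => ∑ k ∈ s, f k z := by
  simpa only [one_mul] using Aff.sum s (fun _ => 1) h

theorem aff_of_indep {r : Finset ι} {f : (ι → ℝ) → ℝ} (h : ∀ x y, f (mix r x y) = f y) :
    Aff r f := fun y => by
  simp only [h, sub_self]
  exact ⟨fun _ _ => by simp, fun _ _ => by simp⟩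

theorem On.indep {q r : Finset ι} {f : (ι → ℝ) → ℝ} (h : On q f) (hr : ∀ i ∈ q, i ∉ r)
    (x y : ι → ℝ) : f (mix r x y) = f y := h _ _ fun i hi => mix_neg _ _ (hr i hi)

/-- composition of affine maps -/
theorem aff_comp {q r : Finset ι} {r' : Finset ι'} {θ : (ι → ℝ) → ℝ} (ho : On q θ)
    (hθ : Aff r θ) {P : (ι' → ℝ) → ι → ℝ} (h1 : ∀ i ∈ q, i ∈ r → Aff r' fun z => P z i)
    (h2 : ∀ i ∈ q, i ∉ r → ∀ x y, P (mix r' x y) i = P y i) : Aff r' fun z => θ (P z) := by
  intro y
  let l : (ι' → ℝ) → ι → ℝ := fun x i =>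
    if i ∈ q ∧ i ∈ r then P (mix r' x y) i - P (mix r' 0 y) i else 0
  have hl : IsLinearMap ℝ l := by
    constructor
    · intro a b; funext i
      simp only [l, Pi.add_apply]
      split_ifs with h
      · exact (h1 i h.1 h.2 y).map_add a b
      · simp
    · intro a b; funext i
      simp only [l, Pi.smul_apply]
      split_ifs with h
      · exact (h1 i h.1 h.2 y).map_smul a b
      · simp
  have key : ∀ x, θ (P (mix r' x y)) = θ (mix r (P (mix r' 0 y) + l x) (P y)) := fun x =>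
    ho _ _ fun i hi => by
      by_cases h : i ∈ r
      · rw [mix_pos _ _ h]; simp [l, hi, h]
      · rw [mix_neg _ _ h, h2 i hi h]
  have e : (fun x => θ (P (mix r' x y)) - θ (P (mix r' 0 y))) =
      fun x => θ (mix r (l x) (P y)) - θ (mix r 0 (P y)) := by
    funext x
    have := (hθ (P y)).map_add (P (mix r' 0 y)) (l x)
    rw [key x, key 0, hl.map_zero, add_zero]
    linarith
  rw [e]
  exact ⟨fun a b => by rw [hl.map_add]; exact (hθ _).map_add _ _,
    fun a b => by rw [hl.map_smul]; exact (hθ _).map_smul _ _⟩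

theorem lin_comp {q r : Finset ι} {r' : Finset ι'} {θ : (ι → ℝ) → ℝ} (ho : On q θ)
    (hθ : Lin r θ) {P : (ι' → ℝ) → ι → ℝ} (h1 : ∀ i ∈ q, i ∈ r → Lin r' fun z => P z i)
    (h2 : ∀ i ∈ q, i ∉ r → ∀ x y, P (mix r' x y) i = P y i) : Lin r' fun z => θ (P z) :=
  (aff_comp ho hθ.aff (fun i hi hr => (h1 i hi hr).aff) h2).lin fun y => by
    rw [← hθ.zero (P y)]
    refine ho _ _ fun i hi => ?_
    by_cases h : i ∈ r
    · rw [mix_pos _ _ h]; exact (h1 i hi h).zero y
    · rw [mix_neg _ _ h, h2 i hi h]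

theorem on_univ [Fintype ι] (f : (ι → ℝ) → ℝ) : On univ f :=
  fun _ _ h => congrArg f (funext fun i => h i (mem_univ i))

/-- fixing some coordinates keeps affinity -/
theorem aff_fix [Fintype ι] {r : Finset ι} {θ : (ι → ℝ) → ℝ} (h : Aff r θ) (s : Finset ι)
    (a : ι → ℝ) : Aff r fun z => θ (mix s a z) :=
  aff_comp (on_univ θ) h (fun i _ _ => by
      by_cases hi : i ∈ s
      · simp only [mix_pos _ _ hi]; exact aff_const _ _
      · simp only [mix_neg _ _ hi]; exact aff_coord _ _)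
    fun i _ hi x y => by simp only [mix, if_neg hi]

theorem Lin.smul_mix {r : Finset ι} {θ : (ι → ℝ) → ℝ} (h : Lin r θ) (t : ℝ) (z : ι → ℝ) :
    θ (mix r (t • z) z) = t * θ z := by
  have := (h z).map_smul t z
  beta_reduce at this
  rwa [mix_self] at this

variable [Fintype ι]

omit [DecidableEq ι] in
/-- a scaling that is constant on blocks -/
theorem qq_scale_le {G : Matrix ι ι ℝ} (hG : G.PosSemidef) {a b : ι → ℝ}
    (ha : ∀ i j, G i j ≠ 0 → a i = a j) (hb : ∀ i j, G i j ≠ 0 → b i = b j)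
    (hab : ∀ i, a i ^ 2 ≤ b i ^ 2) (u : ι → ℝ) : qq G (a * u) ≤ qq G (b * u) := by
  have h1 := qq_nonneg hG (fun i => √(b i ^ 2 - a i ^ 2) * u i)
  have h2 : qq G (b * u) = qq G (a * u) + qq G fun i => √(b i ^ 2 - a i ^ 2) * u i := by
    simp only [qq, dotProduct, mulVec, Pi.mul_apply, mul_sum, ← sum_add_distrib]
    refine sum_congr rfl fun i _ => sum_congr rfl fun j _ => ?_
    by_cases h : G i j = 0
    · simp [h]
    · rw [← ha i j h, ← hb i j h]
      have := Real.mul_self_sqrt (sub_nonneg.2 (hab i))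
      linear_combination (-(u i * G i j * u j)) * this
  linarith

variable [DecidableEq V] {S : MS V ι} {q : Finset ι}

/-- scaling every direction of `L` by `t` -/
def scl (S : MS V ι) (L : Finset V) (t : ℝ) (z : ι → ℝ) : ι → ℝ :=
  fun i => t ^ (S.fc i ∩ L).card * z i

theorem scl_insert {v : V} {L : Finset V} (hv : v ∉ L) (t : ℝ) (z : ι → ℝ) :
    scl S (insert v L) t z = mix (S.st v) (t • scl S L t z) (scl S L t z) := by
  funext i
  by_cases h : v ∈ S.fc i
  · rw [mix_pos _ _ (S.mem_st.2 h), scl, inter_insert_of_mem h,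
      card_insert_of_notMem fun h2 => hv (mem_inter.1 h2).2]
    simp only [scl, Pi.smul_apply, smul_eq_mul]; ring
  · rw [mix_neg _ _ fun h2 => h (S.mem_st.1 h2), scl, inter_insert_of_notMem h]; rfl

theorem lin_scl {L : Finset V} {θ : (ι → ℝ) → ℝ} (h : ∀ v ∈ L, Lin (S.st v) θ) (t : ℝ)
    (z : ι → ℝ) : θ (scl S L t z) = t ^ L.card * θ z := by
  induction L using Finset.induction_on with
  | empty =>
    have : scl S ∅ t z = z := by funext i; simp [scl]
    simp [this]
  | insert v L hv ih =>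
    rw [scl_insert hv, Lin.smul_mix (h v (mem_insert_self _ _)),
      ih fun w hw => h w (mem_insert_of_mem hw), card_insert_of_notMem hv]
    ring

theorem p_scl (h : S.Ok) (hc : S.Cen) (L : Finset V) (t : ℝ) (z : ι → ℝ) :
    S.p (scl S L t z) = scl S L t (S.p z) := by
  funext i
  rw [scl, ← lin_scl (θ := fun z => S.p z i) fun v hv => h.lin hc (mem_inter.1 hv).1]
  refine h.loc _ _ _ fun j hj => ?_
  simp only [scl]
  rw [← inter_assoc, inter_eq_left.2 hj.1]

theorem ln2_scl (h : S.Ok) (hc : S.Cen) (L : Finset V) {t s : ℝ}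
    (hs : ∀ i ∈ q, (t ^ (S.fc i ∩ L).card) ^ 2 ≤ s ^ 2) (z : ι → ℝ) :
    ln2 S q (scl S L t z) ≤ s ^ 2 * ln2 S q z := by
  unfold ln2
  rw [p_scl h hc, ← qq_smul]
  have e1 : msk q (scl S L t z - scl S L t (S.p z)) =
      (fun i => min |t ^ (S.fc i ∩ L).card| |s| * (if t ^ (S.fc i ∩ L).card < 0 then -1 else 1)) *
        msk q (z - S.p z) := by
    funext i
    by_cases hi : i ∈ q
    · rw [Pi.mul_apply, msk_pos _ hi, msk_pos _ hi, min_eq_left (sq_le_sq.1 (hs i hi))]
      simp only [scl, Pi.sub_apply]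
      split_ifs with h0
      · rw [abs_of_neg h0]; ring
      · rw [abs_of_nonneg (not_lt.1 h0)]; ring
    · rw [Pi.mul_apply, msk_neg _ hi, msk_neg _ hi, mul_zero]
  have e2 : s • msk q (z - S.p z) = (fun _ => s) * msk q (z - S.p z) := rfl
  rw [e1, e2]
  refine qq_scale_le h.pd.posSemidef (fun i j hij => by rw [(h.orth i j hij).1])
    (fun _ _ _ => rfl) (fun i => ?_) _
  have h1 : 0 ≤ min |t ^ (S.fc i ∩ L).card| |s| := le_min (abs_nonneg _) (abs_nonneg _)
  have h2 := pow_le_pow_left₀ h1 (min_le_right |t ^ (S.fc i ∩ L).card| |s|) 2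
  rw [sq_abs] at h2
  split_ifs <;> nlinarith

/-- values of a form at points of small length -/
theorem Nle.small (h : S.Ok) (hc : S.Cen) {f : (ι → ℝ) → ℝ} {K : ℝ} (hf : Nle S q f K) {v : V}
    (hv : Lin (S.st v) f) {ρ : ℝ} (h0 : 0 < ρ) (h1 : ρ ≤ 1) {z : ι → ℝ}
    (hz : ln2 S q z ≤ ρ ^ 2) : |f z| ≤ K * ρ := by
  have hi : 1 ≤ ρ⁻¹ := (one_le_inv₀ h0).2 h1
  have h2 := ln2_scl (q := q) h hc {v} (t := ρ⁻¹) (s := ρ⁻¹) (fun i _ => by
    have : (S.fc i ∩ {v}).card ≤ 1 := (card_le_card inter_subset_right).trans (by simp)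
    have := pow_le_pow_right₀ hi this
    rw [pow_one] at this
    exact pow_le_pow_left₀ (by positivity) this 2) z
  have h3 := hf _ (h2.trans (by
    rw [inv_pow, inv_mul_le_iff₀ (by positivity)]; linarith))
  rw [lin_scl (θ := f) (L := {v}) (by simpa using hv), card_singleton, pow_one, abs_mul, abs_of_pos (by positivity),
    inv_mul_le_iff₀ h0] at h3
  linarith

/-- values of a form at points of large length -/
theorem Nle.large (h : S.Ok) (hc : S.Cen) {f : (ι → ℝ) → ℝ} {K : ℝ} (hf : Nle S q f K)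
    {L : Finset V} (hL : ∀ v ∈ L, Lin (S.st v) f) (hq : ∀ i ∈ q, (S.fc i ∩ L).Nonempty) {R : ℝ}
    (hR : 1 ≤ R) {z : ι → ℝ} (hz : ln2 S q z ≤ R ^ 2) : |f z| ≤ K * R ^ L.card := by
  have h0 : 0 < R := by linarith
  have h2 := ln2_scl (q := q) h hc L (t := R⁻¹) (s := R⁻¹) (fun i hi => by
    have := pow_le_pow_of_le_one (inv_pos.2 h0).le (inv_le_one_of_one_le₀ hR) (hq i hi).card_pos
    rw [pow_one] at this
    exact pow_le_pow_left₀ (by positivity) this 2) z
  have h3 := hf _ (h2.trans (by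
    rw [inv_pow, inv_mul_le_iff₀ (by positivity)]; linarith))
  rw [lin_scl hL, abs_mul, abs_of_pos (by positivity), inv_pow,
    inv_mul_le_iff₀ (by positivity)] at h3
  linarith

theorem Nle.of_nar (h : S.Ok) (hc : S.Cen) {f : (ι → ℝ) → ℝ} {K W : ℝ} (hW : 1 ≤ W)
    (hf : Nle (nar S W) q f K) {L : Finset V} (hL : ∀ v ∈ L, Lin (S.st v) f)
    (hq : ∀ i ∈ q, (S.fc i ∩ L).Nonempty) : Nle S q f (K * W ^ L.card) := fun z hz =>
  hf.large (ok_nar h (by linarith)) (cen_nar hc W) hL hq hW (by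
    rw [ln2_nar]; nlinarith [sq_nonneg W])

theorem Nle.to_nar (h : S.Ok) (hc : S.Cen) {f : (ι → ℝ) → ℝ} {K W : ℝ} (hW : 1 ≤ W)
    (hf : Nle S q f K) {v : V} (hv : Lin (S.st v) f) : Nle (nar S W) q f (K / W) := fun z hz => by
  have h0 : 0 < W := by linarith
  rw [div_eq_mul_inv]
  refine hf.small h hc hv (inv_pos.2 h0) (inv_le_one_of_one_le₀ hW) ?_
  rw [ln2_nar] at hz
  rw [inv_pow, ← one_div, le_div_iff₀ (by positivity)]
  linarith

omit [Fintype ι] [DecidableEq V] in
theorem vl_smul {c : ℝ} (hc : 0 < c) (G : Matrix ι ι ℝ) (q : Finset ι) :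
    vl (c • G) q = (√c)⁻¹ ^ q.card * vl G q := by
  have := vol_smul hc (blk G q)
  rw [Fintype.card_coe] at this
  exact this

omit [DecidableEq V] in
theorem wt_eq (z : ι → ℤ) :
    S.wt q z = if ∀ i, i ∉ q → z i = 0 then Real.exp (-(π * ln2 S q (toR z))) else 0 := rfl

/-- the weight of the long vectors -/
theorem tail_wt (h : S.Ok) {I : Finset V} (hI : ∀ i, S.fc i ⊆ I) (hne : ∀ i, (S.fc i).Nonempty)
    (q : Finset ι) (r : ℝ) :
    ∑' z, S.wt q z * (if r ≤ ln2 S q (toR z) then 1 else 0) ≤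
      Real.exp (-(π * r / 2)) * √2 ^ q.card * ((S.lnr I).mass q * vl S.G q) := by
  have hpd : ((1 / 2 : ℝ) • S.G).PosDef := h.pd.smul (by norm_num)
  have h' : (S.gram ((1 / 2 : ℝ) • S.G)).Ok :=
    h.gram hpd fun i j hij => h.orth i j fun h0 => hij (by simp [h0])
  have h1 := (h'.hasSum_wt q).mul_left (Real.exp (-(π * r / 2)))
  have h2 := h'.mass_le_lnr q I
  have h3 : ((S.gram ((1 / 2 : ℝ) • S.G)).lnr I).mass q ≤ (S.lnr I).mass q :=
    (h'.lnr I).mass_narrow (h'.cen_lnr hI hne) (H := S.G) (h.lnr I) (fun x => by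
      change qq ((1 / 2 : ℝ) • S.G) x ≤ _
      rw [qq_smul_mat]
      linarith [qq_nonneg h.pd.posSemidef x]) q
  have h4 : vl (S.gram ((1 / 2 : ℝ) • S.G)).G q = √2 ^ q.card * vl S.G q := by
    change vl ((1 / 2 : ℝ) • S.G) q = _
    rw [vl_smul (by norm_num)]; simp
  refine (hasSum_le (fun z => ?_) (h.summable_re q (C := 1) fun z => by
    split_ifs <;> simp).hasSum h1).trans ?_
  · rw [wt_eq, wt_eq]
    have e : ln2 (S.gram ((1 / 2 : ℝ) • S.G)) q (toR z) = 1 / 2 * ln2 S q (toR z) :=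
      qq_smul_mat _ _ _
    split_ifs with a b
    · rw [mul_one, ← Real.exp_add, e]
      exact Real.exp_le_exp.2 (by nlinarith [Real.pi_pos])
    · rw [mul_zero]; positivity
    · simp
    · simp
  · rw [h4, mul_assoc]
    refine mul_le_mul_of_nonneg_left ?_ (Real.exp_pos _).le
    have := mul_le_mul_of_nonneg_right (h2.trans h3)
      (mul_nonneg (pow_nonneg (Real.sqrt_nonneg 2) q.card) (vl_pos h.pd q).le)
    linarith

theorem tail_cen (h : S.Ok) (hc : S.Cen) (q : Finset ι) (r : ℝ) :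
    ∑' z, S.wt q z * (if r ≤ ln2 S q (toR z) then 1 else 0) ≤
      Real.exp (-(π * r / 2)) * √2 ^ q.card * (S.mass q * vl S.G q) := by
  have := tail_wt h (I := univ.biUnion S.fc) (fun i => subset_biUnion_of_mem S.fc (mem_univ i))
    hc.ne q r
  rwa [h.lnr_of_cen hc] at this

end

end Vale.Agent.P057MA
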