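import Vale.Agent.P057MA.Step
import Vale.Agent.P057MA.Sheet
import Vale.Agent.P057T1.Bias

/-!
Morphisms of centred systems, dilation, extension by new top coordinates.
-/

set_option linter.all false

open Matrix Finset
open scoped Real
open Vale.Agent.P267.H775 Vale.Agent.P057G Vale.Agent.P057HU

namespace Vale.Agent.P057MA

noncomputable section

theorem exists_bp (n : ℕ) : ∃ c : ℕ, 4 ≤ c ∧
    ∀ (V : Type) [Fintype V] [DecidableEq V], Fintype.card V ≤ n → BP V c := by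
  obtain ⟨c, hc⟩ := P057T1.bias_near.{0, 0}
  refine ⟨max 4 ((range (n + 1)).sup c), le_max_left _ _, ?_⟩
  intro V _ _ hV ι _ _ S h h' q F Φ D δ W η N a1 a2 _ a4 a5 a6 a7 a8 a9 a10 a11 a12 a13
  have h1 : c F.card ≤ max 4 ((range (n + 1)).sup c) := le_max_of_le_right
    (le_sup (f := c) (mem_range.2 (Nat.lt_succ_of_le ((card_le_univ F).trans hV))))
  have h2 : 1 ≤ D / δ := by rw [le_div_iff₀ a5]; linarith
  have h3 := pow_le_pow_right₀ h2 h1
  obtain ⟨m, m1, m2, m3⟩ := hc h h' a1 a2 a4 a5 a6 a7 a8 (h3.trans a9)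
    (a10.trans (pow_le_pow_of_le_one (by positivity)
      ((div_le_one (by linarith)).2 (by linarith)) h1)) ((le_max_left _ _).trans a11) a12 a13
  exact ⟨m, m1, m2.trans h3, m3.mono h3⟩

variable {V ι ι' ι'' κ : Type*} [DecidableEq V] [DecidableEq ι] [Fintype ι] [DecidableEq ι']
  [Fintype ι'] [DecidableEq ι''] [Fintype ι''] [DecidableEq κ] [Fintype κ]

/-- integer multilinear maps that send the unit ball to the unit ball -/
structure Mor (S' : MS V ι') (S : MS V ι) (P : (ι' → ℝ) → ι → ℝ) : Prop where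
  fm : ∀ i, Fm S' (fce S' (S.fc i)) (S.fc i) fun z => P z i
  int : ∀ i, IntV fun z => P z i
  ball : ∀ z, ln2 S' univ z ≤ 1 → ln2 S univ (P z) ≤ 1

variable {S : MS V ι} {S' : MS V ι'} {S'' : MS V ι''} {P : (ι' → ℝ) → ι → ℝ}

theorem fce_mono {F F' : Finset V} (h : F ⊆ F') : fce S F ⊆ fce S F' :=
  fun _ hi => mem_fce.2 ((mem_fce.1 hi).trans h)

theorem Mor.indep (h : Mor S' S P) {v : V} {i : ι} (hi : i ∉ S.st v) (x y : ι' → ℝ) :
    P (mix (S'.st v) x y) i = P y i :=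
  (h.fm i).on.indep (fun _ hj h2 => hi (S.mem_st.2 (mem_fce.1 hj (S'.mem_st.1 h2)))) x y

theorem Mor.on (h : Mor S' S P) {F : Finset V} {f : (ι → ℝ) → ℝ} (hf : On (fce S F) f) :
    On (fce S' F) fun z => f (P z) := fun z z' hz => hf _ _ fun i hi =>
  (h.fm i).on z z' fun j hj => hz j (fce_mono (mem_fce.1 hi) hj)

theorem Mor.lin (h : Mor S' S P) {v : V} {f : (ι → ℝ) → ℝ} (hf : Lin (S.st v) f) :
    Lin (S'.st v) fun z => f (P z) :=
  lin_comp (on_univ f) hf (fun i _ hi => (h.fm i).lin v (S.mem_st.1 hi)) fun _ _ hi => h.indep hi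

theorem Mor.aff (h : Mor S' S P) {v : V} {f : (ι → ℝ) → ℝ} (hf : Aff (S.st v) f) :
    Aff (S'.st v) fun z => f (P z) :=
  aff_comp (on_univ f) hf (fun i _ hi => ((h.fm i).lin v (S.mem_st.1 hi)).aff)
    fun _ _ hi => h.indep hi

theorem Mor.form (h : Mor S' S P) {F L : Finset V} {f : (ι → ℝ) → ℝ} (hf : Fm S (fce S F) L f) :
    Fm S' (fce S' F) L fun z => f (P z) := ⟨h.on hf.on, fun v hv => h.lin (hf.lin v hv)⟩

theorem Mor.af (h : Mor S' S P) {F L : Finset V} {f : (ι → ℝ) → ℝ} (hf : Af S (fce S F) L f) :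
    Af S' (fce S' F) L fun z => f (P z) := ⟨h.on hf.on, fun v hv => h.aff (hf.aff v hv)⟩

theorem Mor.exists_int (h : Mor S' S P) (z : ι' → ℤ) : ∃ w : ι → ℤ, P (toR z) = toR w := by
  choose w hw using fun i => h.int i z
  exact ⟨w, funext hw⟩

theorem Mor.intV (h : Mor S' S P) {f : (ι → ℝ) → ℝ} (hf : IntV f) : IntV fun z => f (P z) :=
  fun z => by
    obtain ⟨w, hw⟩ := h.exists_int z
    obtain ⟨n, hn⟩ := hf w
    exact ⟨n, by beta_reduce; rw [hw, hn]⟩

theorem Mor.nle (h : Mor S' S P) (hS : S.Ok) (hS' : S'.Ok) {F : Finset V} {f : (ι → ℝ) → ℝ}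
    (ho : On (fce S F) f) {K : ℝ} (hf : Nle S (fce S F) f K) :
    Nle S' (fce S' F) (fun z => f (P z)) K :=
  Nle.down hS' (cls_fce S' F) (subset_univ _) (h.on ho) fun z hz =>
    hf.up hS (cls_fce S F) (subset_univ _) _ (h.ball z hz)

theorem Mor.near (h : Mor S' S P) (hS : S.Ok) (hS' : S'.Ok) {F L : Finset V} {f : (ι → ℝ) → ℝ}
    (ho : On (fce S F) f) {K : ℝ} (hf : Near S (fce S F) L f K) :
    Near S' (fce S' F) L (fun z => f (P z)) K := by
  obtain ⟨I, a, b, c⟩ := hf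
  exact ⟨_, h.form a, h.intV b, h.nle hS hS' (ho.map₂ a.on fun x y => x - y) c⟩

theorem Mor.comp (h : Mor S' S P) {Q : (ι'' → ℝ) → ι' → ℝ} (h' : Mor S'' S' Q) :
    Mor S'' S fun z => P (Q z) :=
  ⟨fun i => h'.form (h.fm i), fun i => h'.intV (h.int i), fun z hz => h.ball _ (h'.ball z hz)⟩

theorem mor_id (S : MS V ι) : Mor S S fun z => z :=
  ⟨fun i => ⟨On.coord (mem_fce.2 Subset.rfl), fun _ hv => lin_coord (S.mem_st.2 hv)⟩,
    IntV.coord, fun _ hz => hz⟩

/-! ### dilation -/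

/-- narrowing of the directions of `B` by `lam` -/
def dil (S : MS V ι) (B : Finset V) (lam : ℝ) : MS V ι :=
  S.gram (P057T1.gsc S.G fun i => lam ^ (S.fc i ∩ B).card)

theorem ok_dil (h : S.Ok) (B : Finset V) {lam : ℝ} (hl : 1 ≤ lam) : (dil S B lam).Ok :=
  P057T1.ok_gsc h (fun _ _ e => by rw [e]) fun _ => one_le_pow₀ hl

theorem cen_dil (h : S.Cen) (B : Finset V) (lam : ℝ) : (dil S B lam).Cen := h.gram _

theorem dil_dil (B : Finset V) (a b : ℝ) : dil (dil S B a) B b = dil S B (a * b) := by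
  simp only [dil, MS.gram]
  congr 1
  ext i j
  simp only [P057T1.gsc, of_apply, mul_pow]
  ring

theorem dil_one (B : Finset V) : dil S B 1 = S := by
  simp only [dil, MS.gram, one_pow]
  congr 1
  ext i j
  simp [P057T1.gsc]

theorem scl_scl (B : Finset V) (a b : ℝ) (z : ι → ℝ) :
    scl S B a (scl S B b z) = scl S B (a * b) z := by
  funext i; simp only [scl, mul_pow, mul_assoc]

theorem scl_one (B : Finset V) (z : ι → ℝ) : scl S B 1 z = z := by funext i; simp [scl]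

theorem ln2_dil (h : S.Ok) (hc : S.Cen) (B : Finset V) (lam : ℝ) (q : Finset ι) (z : ι → ℝ) :
    ln2 (dil S B lam) q z = ln2 S q (scl S B lam z) := by
  unfold ln2
  rw [p_scl h hc]
  refine (P057T1.qq_gsc _ _ _).trans (congrArg _ (funext fun i => ?_))
  simp only [Pi.mul_apply, msk, Pi.sub_apply, scl]
  split_ifs
  · exact mul_sub _ _ _
  · exact mul_zero _

theorem Fm.scl {F : Finset V} {f : (ι → ℝ) → ℝ} (hf : Fm S (fce S F) F f) (B : Finset V) (t : ℝ)
    (z : ι → ℝ) : f (scl S B t z) = t ^ (F ∩ B).card * f z := by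
  rw [← lin_scl fun v hv => hf.lin v (mem_inter.1 hv).1]
  refine hf.on _ _ fun j hj => ?_
  simp only [P057MA.scl]
  rw [← inter_assoc, inter_eq_left.2 (mem_fce.1 hj)]

theorem Smo.dil [Fintype V] (h : S.Ok) (hc : S.Cen) {q : Finset ι} {B : Finset V} {N : ℕ}
    {W lam η : ℝ} (hW : 0 < W) (hl : 1 ≤ lam) (hs : Smo S q N (W * lam ^ B.card) η) :
    Smo (dil S B lam) q N W η := by
  intro C _ _ c0 hC
  have h1 := hs C c0 hC
  rw [← nar_nar] at h1
  have h2 := P057T1.mass_gsc (ok_nar (ok_blow h c0) hW.ne') (cen_nar (cen_blow hc c0) W)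
    (s := fun a => lam ^ (S.fc a.1.1 ∩ B).card) (fun a b e => by
      rw [Subset.antisymm (fc_blow_sub.1 e.le).1 (fc_blow_sub.1 e.ge).1])
    (fun _ => one_le_pow₀ hl) (W := lam ^ B.card) (by positivity)
    (fun _ => pow_le_pow_right₀ hl (card_le_card inter_subset_right)) (vld S.fc c0 q)
  refine le_trans (le_of_eq ?_) (h2.trans h1)
  congr 1
  simp only [P057MA.nar, P057MA.dil, blow, MS.gram]
  congr 1
  ext a b
  change W ^ 2 * (if a.1.2 = b.1.2 then _ * S.G a.1.1 b.1.1 * _ else 0) =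
    _ * (W ^ 2 * if a.1.2 = b.1.2 then S.G a.1.1 b.1.1 else 0) * _
  split_ifs <;> ring

theorem ln2_split (h : S.Ok) {r : Finset ι} (hr : Sat S.G r) (q : Finset ι) (z : ι → ℝ) :
    ln2 S q z = ln2 S (q ∩ r) z + ln2 S (q \ r) z := qq_msk_split h.pd.1 hr q _

/-- a form is controlled by the length in one of its directions -/
theorem Nle.part (h : S.Ok) (hc : S.Cen) {q : Finset ι} {f : (ι → ℝ) → ℝ} {K : ℝ}
    (hf : Nle S q f K) {L : Finset V} (hL : ∀ v ∈ L, Lin (S.st v) f)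
    (hq : ∀ i ∈ q, (S.fc i ∩ L).Nonempty) {b : V} (hb : b ∈ L) {z : ι → ℝ} (hz : ln2 S q z ≤ 1) :
    f z ^ 2 ≤ K ^ 2 * 4 ^ L.card * ln2 S (q ∩ S.st b) z := by
  have h0 := ln2_nonneg (q := q ∩ S.st b) h z
  have key : ∀ ε, 0 < ε → f z ^ 2 ≤ K ^ 2 * 4 ^ L.card * (ln2 S (q ∩ S.st b) z + ε) := by
    intro ε hε
    set β := ln2 S (q ∩ S.st b) z + ε with hβ
    have hβ0 : 0 < β := by linarith
    have h1 := ln2_scl (q := q ∩ S.st b) h hc {b} (t := (√β)⁻¹) (s := (√β)⁻¹) (fun i hi => by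
      rw [inter_singleton_of_mem (S.mem_st.1 (mem_inter.1 hi).2), card_singleton, pow_one]) z
    have h2 := ln2_scl (q := q \ S.st b) h hc {b} (t := (√β)⁻¹) (s := 1) (fun i hi => by
      rw [inter_singleton_of_notMem fun e => (Finset.mem_sdiff.1 hi).2 (S.mem_st.2 e)]
      simp) z
    rw [inv_pow, Real.sq_sqrt hβ0.le] at h1
    have h3 : β⁻¹ * ln2 S (q ∩ S.st b) z ≤ 1 := by
      rw [inv_mul_le_iff₀ hβ0]; linarith
    have h4 := ln2_split h (h.sat_st b) q z
    have h5 := hf.large h hc hL hq (R := 2) (by norm_num) (z := scl S {b} (√β)⁻¹ z) (by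
      rw [ln2_split h (h.sat_st b)]; linarith)
    rw [lin_scl (θ := f) (L := {b}) (by simpa using hL b hb), card_singleton, pow_one] at h5
    have h6 := pow_le_pow_left₀ (abs_nonneg _) h5 2
    rw [sq_abs, mul_pow, inv_pow, Real.sq_sqrt hβ0.le, inv_mul_le_iff₀ hβ0, mul_pow, ← pow_mul,
      mul_comm L.card, pow_mul] at h6
    norm_num at h6
    linarith
  refine le_of_forall_pos_le_add fun ε hε => ?_
  have p : 0 < K ^ 2 * 4 ^ L.card + 1 := by positivity
  have h1 := key (ε / (K ^ 2 * 4 ^ L.card + 1)) (by positivity)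
  have h2 : K ^ 2 * 4 ^ L.card * (ε / (K ^ 2 * 4 ^ L.card + 1)) ≤ ε := by
    rw [← mul_div_assoc, div_le_iff₀ p]; nlinarith
  linarith

/-! ### embeddings and new top coordinates -/

theorem smo_image [Fintype V] {e : ι → ι'} (he : Function.Injective e)
    (hf : ∀ i, S'.fc (e i) = S.fc i) {q : Finset ι}
    (hG : ∀ i ∈ q, ∀ j ∈ q, S'.G (e i) (e j) = S.G i j)
    (hp : ∀ z, ∀ i ∈ q, S'.p z (e i) = S.p (z ∘ e) i) {N : ℕ} {W η : ℝ} :
    Smo S' (q.image e) N W η ↔ Smo S q N W η := by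
  refine forall_congr' fun C => forall_congr' fun _ => forall_congr' fun _ =>
    forall_congr' fun c0 => forall_congr' fun _ => ?_
  let E : BI S.fc c0 → BI S'.fc c0 := fun a => ⟨(e a.1.1, a.1.2), fun v hv => a.2 v (hf _ ▸ hv)⟩
  have hE : Function.Injective E := fun a b h => Subtype.ext (Prod.ext
    (he (congrArg (fun x : BI S'.fc c0 => x.1.1) h)) (congrArg (fun x : BI S'.fc c0 => x.1.2) h))
  have e1 : vld S'.fc c0 (q.image e) = (vld S.fc c0 q).image E := by
    ext a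
    rw [mem_vld, mem_image, mem_image]
    constructor
    · rintro ⟨i, hi, h⟩
      exact ⟨⟨(i, a.1.2), fun v hv => a.2 v (by rwa [← h, hf])⟩, mem_vld.2 hi,
        Subtype.ext (Prod.ext h rfl)⟩
    · rintro ⟨b, hb, rfl⟩
      exact ⟨b.1.1, mem_vld.1 hb, rfl⟩
  rw [e1, mass_image (S := nar (blow S c0) W) (S' := nar (blow S' c0) W) hE
    (fun a ha b hb => by
      simp only [nar, blow, MS.gram, Matrix.smul_apply, of_apply, E,
        hG _ (mem_vld.1 ha) _ (mem_vld.1 hb)])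
    fun z a ha => by
      refine (hp _ _ (mem_vld.1 ha)).trans ?_
      change S.p _ _ = S.p _ _
      congr 1
      funext k
      refine congrArg z (Subtype.ext (Prod.ext rfl ?_))
      simp only [cp, E, hf, Function.comp]]

/-- new coordinates on top of a system -/
def top (S : MS V ι) (fn : κ → Finset V) (Gn : Matrix κ κ ℝ) (pn : (ι → ℝ) → κ → ℝ) :
    MS V (ι ⊕ κ) where
  fc := Sum.elim S.fc fn
  lv := Sum.elim S.lv fun _ => univ.sup S.lv + 1
  G := fromBlocks S.G 0 0 Gn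
  p z := Sum.elim (S.p (z ∘ Sum.inl)) (pn (z ∘ Sum.inl))

/-- admissible data for new coordinates -/
structure TopOk (S : MS V ι) (fn : κ → Finset V) (Gn : Matrix κ κ ℝ) (pn : (ι → ℝ) → κ → ℝ) :
    Prop where
  pd : Gn.PosDef
  ort : Ort fn fn Gn
  ne : ∀ j, (fn j).Nonempty
  fm : ∀ j, Fm S (fce S (fn j)) (fn j) fun z => pn z j

variable {fn : κ → Finset V} {Gn : Matrix κ κ ℝ} {pn : (ι → ℝ) → κ → ℝ}

omit [DecidableEq ι] [DecidableEq κ] [DecidableEq V] in
theorem qq_fromBlocks (G : Matrix ι ι ℝ) (H : Matrix κ κ ℝ) (u : ι ⊕ κ → ℝ) :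
    qq (fromBlocks G 0 0 H) u = qq G (u ∘ Sum.inl) + qq H (u ∘ Sum.inr) := by
  simp [qq, fromBlocks_mulVec, dotProduct, Fintype.sum_sum_type]

theorem mix_inl (v : V) (x y : ι ⊕ κ → ℝ) : mix ((top S fn Gn pn).st v) x y ∘ Sum.inl =
    mix (S.st v) (x ∘ Sum.inl) (y ∘ Sum.inl) := by
  funext i
  simp only [Function.comp, mix, MS.mem_st]
  rfl

theorem aff_inl {v : V} {f : (ι → ℝ) → ℝ} (h : Aff (S.st v) f) :
    Aff ((top S fn Gn pn).st v) fun z => f (z ∘ Sum.inl) := fun y => by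
  simp only [mix_inl]
  exact ⟨fun a b => (h _).map_add _ _, fun a b => (h _).map_smul a _⟩

theorem lin_inl {v : V} {f : (ι → ℝ) → ℝ} (h : Lin (S.st v) f) :
    Lin ((top S fn Gn pn).st v) fun z => f (z ∘ Sum.inl) := fun y => by
  simp only [mix_inl]
  exact ⟨fun a b => (h _).map_add _ _, fun a b => (h _).map_smul a _⟩

theorem Fm.inl {F L : Finset V} {f : (ι → ℝ) → ℝ} (h : Fm S (fce S F) L f) :
    Fm (top S fn Gn pn) (fce (top S fn Gn pn) F) L fun z => f (z ∘ Sum.inl) :=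
  ⟨fun _ _ hz => h.on _ _ fun i hi => hz (Sum.inl i) (mem_fce.2 (mem_fce (S := S).1 hi)),
    fun v hv => lin_inl (h.lin v hv)⟩

theorem ok_top (h : S.Ok) (ht : TopOk S fn Gn pn) : (top S fn Gn pn).Ok := by
  refine ⟨?_, fun a b hab => ?_, fun a z z' hz => ?_, fun v a hv => ?_⟩
  · refine PosDef.of_dotProduct_mulVec_pos (h.pd.1.fromBlocks (by simp) ht.pd.1) fun x hx => ?_
    change 0 < qq (fromBlocks S.G 0 0 Gn) x
    rw [qq_fromBlocks]
    have a1 := qq_nonneg h.pd.posSemidef (x ∘ Sum.inl)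
    have a2 := qq_nonneg ht.pd.posSemidef (x ∘ Sum.inr)
    by_cases h1 : x ∘ Sum.inl = 0
    · have : x ∘ Sum.inr ≠ 0 := fun h2 => hx (funext fun a => by
        cases a with
        | inl i => exact congrFun h1 i
        | inr j => exact congrFun h2 j)
      linarith [qq_pos ht.pd this]
    · linarith [qq_pos h.pd h1]
  · rcases a with i | i <;> rcases b with j | j
    · exact h.orth i j hab
    · exact absurd rfl hab
    · exact absurd rfl hab
    · exact ⟨ht.ort i j hab, rfl⟩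
  · rcases a with i | j
    · exact h.loc i _ _ fun k hk => hz (Sum.inl k) hk
    · exact (ht.fm j).on _ _ fun k hk => hz (Sum.inl k) ⟨mem_fce (S := S).1 hk, lv_lt (S := S) k⟩
  · rcases a with i | j
    · exact aff_inl (h.aff v i hv)
    · exact aff_inl ((ht.fm j).lin v hv).aff

theorem cen_top (h : S.Ok) (hc : S.Cen) (ht : TopOk S fn Gn pn) : (top S fn Gn pn).Cen := by
  refine ⟨fun a => ?_, fun v a hv => ?_⟩
  · rcases a with i | j
    exacts [hc.ne i, ht.ne j]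
  · rcases a with i | j
    · exact (lin_inl (h.lin hc hv)).zero
    · exact (lin_inl ((ht.fm j).lin v hv)).zero

theorem ln2_top (z : ι ⊕ κ → ℝ) : ln2 (top S fn Gn pn) univ z =
    ln2 S univ (z ∘ Sum.inl) + qq Gn (z ∘ Sum.inr - pn (z ∘ Sum.inl)) := by
  unfold ln2
  rw [show msk univ (z - (top S fn Gn pn).p z) = _ from funext fun i => msk_pos _ (mem_univ i),
    show msk univ (z ∘ Sum.inl - S.p (z ∘ Sum.inl)) = _ from funext fun i => msk_pos _ (mem_univ i)]
  exact qq_fromBlocks _ _ _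

theorem low_top : low (top S fn Gn pn) (univ.sup S.lv + 1) = univ.image Sum.inl := by
  ext a
  rcases a with i | j
  · simpa [mem_low, top] using lv_lt i
  · simp [mem_low, top]

theorem smo_top [Fintype V] {q : Finset ι} {N : ℕ} {W η : ℝ} :
    Smo (top S fn Gn pn) (q.image Sum.inl) N W η ↔ Smo S q N W η :=
  smo_image Sum.inl_injective (fun _ => rfl) (fun _ _ _ _ => rfl) fun _ _ _ => rfl

theorem cx_top : cx (top S fn Gn pn).G (univ.image Sum.inr) = th Gn⁻¹ 0 := by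
  let a : κ ≃ ↥(univ.image (Sum.inr : κ → ι ⊕ κ)) := Equiv.ofBijective
    (fun j => ⟨Sum.inr j, mem_image_of_mem _ (mem_univ j)⟩)
    ⟨fun i j h => Sum.inr_injective (congrArg Subtype.val h), fun j => by
      obtain ⟨i, _, h⟩ := mem_image.1 j.2
      exact ⟨i, Subtype.ext h⟩⟩
  have e : Gn = (blk (top S fn Gn pn).G (univ.image Sum.inr)).submatrix a a := rfl
  conv_rhs => rw [e, inv_submatrix_equiv]
  unfold cx th
  rw [← (Equiv.arrowCongr a (Equiv.refl ℤ)).tsum_eq]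
  refine tsum_congr fun z => ?_
  unfold gs
  rw [← qq_equiv a]
  congr 4
  funext j
  simp

/-- the new coordinates approximate their centres -/
theorem near_top (h : S.Ok) (ht : TopOk S fn Gn pn) (j : κ) {τ : ℝ} (hτ : 0 ≤ τ)
    (hG : qq Gn⁻¹ (Pi.single j 1) ≤ τ ^ 2) :
    Near (top S fn Gn pn) (fce (top S fn Gn pn) (fn j)) (fn j) (fun z => pn (z ∘ Sum.inl) j) τ := by
  have hi : Fm (top S fn Gn pn) (fce (top S fn Gn pn) (fn j)) (fn j) fun z => z (Sum.inr j) :=
    ⟨On.coord (mem_fce.2 Subset.rfl), fun v hv => lin_coord ((top S fn Gn pn).mem_st.2 hv)⟩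
  refine ⟨_, hi, IntV.coord _, Nle.down (ok_top h ht) (cls_fce _ _) (subset_univ _)
    ((ht.fm j).inl.sub hi).on fun z hz => ?_⟩
  rw [ln2_top] at hz
  have h1 := P057T1.coord_le ht.pd (z ∘ Sum.inr - pn (z ∘ Sum.inl)) j
  have h2 := ln2_nonneg (q := univ) h (z ∘ Sum.inl)
  have h3 := qq_nonneg ht.pd.inv.posSemidef (Pi.single j 1)
  rw [abs_sub_comm]
  refine abs_le_of_sq_le_sq' ?_ hτ |> abs_le.2
  refine h1.trans ?_
  nlinarith

end

end Vale.Agent.P057MA
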