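import Vale.Agent.P057G.Ms6
import Vale.Agent.P057MA.Defs

/-!
Blow-ups of multi-affine systems, embeddings of systems, smoothness.
-/

set_option linter.all false

open Matrix Finset
open scoped Real Kronecker
open Vale.Agent.P267.H775 Vale.Agent.P057G

namespace Vale.Agent.P057MA

noncomputable section

section emb

variable {V V' ι ι' : Type*} [DecidableEq ι] [Fintype ι] [DecidableEq ι'] [Fintype ι']
  {S : MS V ι} {S' : MS V' ι'} {e : ι → ι'} {q : Finset ι}

theorem qq_msk_sum (H : Matrix ι ι ℝ) (r : Finset ι) (w : ι → ℝ) :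
    qq H (msk r w) = ∑ i ∈ r, w i * ∑ j ∈ r, H i j * w j := by
  rw [qq_msk]
  unfold qq
  simp only [dotProduct, mulVec, blk, submatrix_apply]
  rw [← sum_coe_sort r]
  refine sum_congr rfl fun i _ => ?_
  rw [← sum_coe_sort r fun j => H i j * w j]

theorem qq_msk_image (he : Function.Injective e) {G : Matrix ι ι ℝ} {G' : Matrix ι' ι' ℝ}
    (hG : ∀ i ∈ q, ∀ j ∈ q, G' (e i) (e j) = G i j) (u : ι' → ℝ) :
    qq G' (msk (q.image e) u) = qq G (msk q (u ∘ e)) := by
  rw [qq_msk_sum, qq_msk_sum, sum_image fun _ _ _ _ h => he h]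
  refine sum_congr rfl fun i hi => ?_
  rw [sum_image fun _ _ _ _ h => he h]
  congr 1
  exact sum_congr rfl fun j hj => by rw [hG i hi j hj]; rfl

omit [Fintype ι] [Fintype ι'] in
theorem vl_image (he : Function.Injective e) {G : Matrix ι ι ℝ} {G' : Matrix ι' ι' ℝ}
    (hG : ∀ i ∈ q, ∀ j ∈ q, G' (e i) (e j) = G i j) : vl G' (q.image e) = vl G q := by
  let a : q ≃ ↥(q.image e) := Equiv.ofBijective (fun i => ⟨e i, mem_image_of_mem e i.2⟩)
    ⟨fun i j h => Subtype.ext (he (congrArg Subtype.val h)), fun j => by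
      obtain ⟨i, hi, h⟩ := mem_image.1 j.2
      exact ⟨⟨i, hi⟩, Subtype.ext h⟩⟩
  unfold vl vol
  rw [← det_submatrix_equiv_self a]
  congr 3
  ext i j
  exact hG i i.2 j j.2

/-- series over the image of an embedded subsystem -/
theorem tsum_wt_image (he : Function.Injective e)
    (hG : ∀ i ∈ q, ∀ j ∈ q, S'.G (e i) (e j) = S.G i j)
    (hp : ∀ z, ∀ i ∈ q, S'.p z (e i) = S.p (z ∘ e) i) {E : Type*} [AddCommMonoid E]
    [Module ℝ E] [TopologicalSpace E] (F : (ι → ℤ) → E) :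
    ∑' z, S'.wt (q.image e) z • F (z ∘ e) = ∑' z, S.wt q z • F z := by
  have hi : Function.Injective fun z : ι → ℤ => Function.extend e z 0 :=
    fun z z' h => by
      funext i
      have := congrFun h (e i)
      simpa only [he.extend_apply] using this
  rw [← hi.tsum_eq]
  · refine tsum_congr fun z => ?_
    have h1 : Function.extend e z 0 ∘ e = z := funext fun i => he.extend_apply z 0 i
    rw [h1]
    congr 1
    unfold MS.wt
    have h2 : (∀ j, j ∉ q.image e → Function.extend e z 0 j = 0) ↔ ∀ i, i ∉ q → z i = 0 := by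
      refine ⟨fun h i hi => ?_, fun h j hj => ?_⟩
      · rw [← he.extend_apply z 0 i]
        refine h _ fun h2 => hi ?_
        obtain ⟨j, hj, h3⟩ := mem_image.1 h2
        exact he h3 ▸ hj
      · by_cases hj2 : ∃ i, e i = j
        · obtain ⟨i, rfl⟩ := hj2
          rw [he.extend_apply]
          exact h i fun h2 => hj (mem_image_of_mem e h2)
        · exact Function.extend_apply' _ _ _ hj2
    rw [if_congr h2 rfl rfl]
    congr 1
    unfold gs
    rw [qq_msk_image he hG]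
    congr 4
    refine msk_congr fun i hi => ?_
    simp only [MS.ps, Function.comp, Pi.sub_apply]
    rw [hp _ i hi]
    congr 1
    · simp only [toR, he.extend_apply]
    · congr 1
      funext k
      simp only [toR, Function.comp, he.extend_apply]
  · intro z hz
    refine ⟨z ∘ e, funext fun j => ?_⟩
    by_cases hj : ∃ i, e i = j
    · obtain ⟨i, rfl⟩ := hj
      exact he.extend_apply _ _ _
    · beta_reduce
      rw [Function.extend_apply' _ _ _ hj]
      by_contra h0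
      refine hz ?_
      beta_reduce
      rw [MS.wt_eq_zero (fun h => ?_) (Ne.symm h0), zero_smul]
      obtain ⟨i, _, h⟩ := mem_image.1 h
      exact hj ⟨i, h⟩

theorem mass_image (he : Function.Injective e)
    (hG : ∀ i ∈ q, ∀ j ∈ q, S'.G (e i) (e j) = S.G i j)
    (hp : ∀ z, ∀ i ∈ q, S'.p z (e i) = S.p (z ∘ e) i) : S'.mass (q.image e) = S.mass q := by
  have := tsum_wt_image he hG hp fun _ => (1 : ℝ)
  simp only [smul_eq_mul, mul_one] at this
  rw [MS.mass, MS.mass, this, vl_image he hG]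

theorem bias_image (he : Function.Injective e)
    (hG : ∀ i ∈ q, ∀ j ∈ q, S'.G (e i) (e j) = S.G i j)
    (hp : ∀ z, ∀ i ∈ q, S'.p z (e i) = S.p (z ∘ e) i) (θ : (ι → ℝ) → ℝ) :
    S'.bias (q.image e) (fun z => θ (z ∘ e)) = S.bias q θ :=
  tsum_wt_image he hG hp fun z => Real.cos (2 * π * θ (toR z))

theorem ln2_image (he : Function.Injective e)
    (hG : ∀ i ∈ q, ∀ j ∈ q, S'.G (e i) (e j) = S.G i j)
    (hp : ∀ z, ∀ i ∈ q, S'.p z (e i) = S.p (z ∘ e) i) (z : ι' → ℝ) :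
    ln2 S' (q.image e) z = ln2 S q (z ∘ e) := by
  unfold ln2
  rw [qq_msk_image he hG]
  congr 1
  exact msk_congr fun i hi => by simp only [Function.comp, Pi.sub_apply, hp z i hi]

end emb

variable {V ι C : Type*} [DecidableEq V]

/-- the indices of a blow-up: an index and a choice of copies on its face -/
abbrev BI (fc : ι → Finset V) (c0 : C) : Type _ :=
  {a : ι × (V → C) // ∀ v, v ∉ fc a.1 → a.2 v = c0}

/-- the copy of the index `k` on the transversal `χ` -/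
def cp (fc : ι → Finset V) (c0 : C) (χ : V → C) (k : ι) : BI fc c0 :=
  ⟨(k, fun v => if v ∈ fc k then χ v else c0), fun _ hv => if_neg hv⟩

theorem cp_inj (fc : ι → Finset V) (c0 : C) (χ : V → C) : Function.Injective (cp fc c0 χ) :=
  fun _ _ h => congrArg (fun a : BI fc c0 => a.1.1) h

theorem cp_self {fc : ι → Finset V} {c0 : C} (a : BI fc c0) : cp fc c0 a.1.2 a.1.1 = a := by
  refine Subtype.ext (Prod.ext rfl (funext fun v => ?_))
  change (if v ∈ fc a.1.1 then a.1.2 v else c0) = _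
  split_ifs with h
  · rfl
  · exact (a.2 v h).symm

theorem cp_congr {fc : ι → Finset V} {c0 : C} {χ χ' : V → C} {k : ι}
    (h : ∀ v ∈ fc k, χ v = χ' v) : cp fc c0 χ k = cp fc c0 χ' k := by
  refine Subtype.ext (Prod.ext rfl (funext fun v => ?_))
  change (if v ∈ fc k then χ v else c0) = if v ∈ fc k then χ' v else c0
  split_ifs with hv
  · exact h v hv
  · rfl

theorem cp_snd {fc : ι → Finset V} {c0 : C} (χ : V → C) {k : ι} {v : V} (hv : v ∈ fc k) :
    (cp fc c0 χ k).1.2 v = χ v := if_pos hv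

variable [DecidableEq C] [Fintype V]

/-- the blow-up: every vertex is replaced by copies indexed by `C` -/
def blow (S : MS V ι) (c0 : C) : MS (V × C) (BI S.fc c0) where
  fc a := (S.fc a.1.1).image fun v => (v, a.1.2 v)
  lv a := S.lv a.1.1
  G := of fun a b => if a.1.2 = b.1.2 then S.G a.1.1 b.1.1 else 0
  p z a := S.p (z ∘ cp S.fc c0 a.1.2) a.1.1

variable {S : MS V ι} {c0 : C}

theorem mem_fc_blow {a : BI S.fc c0} {w : V × C} :
    w ∈ (blow S c0).fc a ↔ w.1 ∈ S.fc a.1.1 ∧ a.1.2 w.1 = w.2 := by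
  simp only [blow, mem_image]
  exact ⟨fun ⟨v, h1, h2⟩ => h2 ▸ ⟨h1, rfl⟩, fun ⟨h1, h2⟩ => ⟨w.1, h1, by rw [h2]⟩⟩

theorem fc_blow_sub {a b : BI S.fc c0} : (blow S c0).fc a ⊆ (blow S c0).fc b ↔
    S.fc a.1.1 ⊆ S.fc b.1.1 ∧ ∀ v ∈ S.fc a.1.1, a.1.2 v = b.1.2 v := by
  refine ⟨fun h => ⟨fun v hv => ?_, fun v hv => ?_⟩, fun h w hw => ?_⟩
  · exact (mem_fc_blow.1 (h (mem_fc_blow.2 ⟨hv, rfl⟩ : (v, a.1.2 v) ∈ _))).1
  · exact (mem_fc_blow.1 (h (mem_fc_blow.2 ⟨hv, rfl⟩ : (v, a.1.2 v) ∈ _))).2.symm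
  · obtain ⟨h1, h2⟩ := mem_fc_blow.1 hw
    exact mem_fc_blow.2 ⟨h.1 h1, by rw [← h.2 _ h1, h2]⟩

theorem fc_blow_cp (χ : V → C) (k : ι) :
    (blow S c0).fc (cp S.fc c0 χ k) = (S.fc k).image fun v => (v, χ v) :=
  image_congr fun v hv => congrArg (Prod.mk v) (cp_snd χ (mem_coe.1 hv))

theorem card_fc_blow (a : BI S.fc c0) : ((blow S c0).fc a).card = (S.fc a.1.1).card :=
  card_image_of_injective _ fun _ _ h => congrArg Prod.fst h

variable [Fintype C] [Fintype ι] [DecidableEq ι]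

/-- the copies of the indices in `q` -/
def vld (fc : ι → Finset V) (c0 : C) (q : Finset ι) : Finset (BI fc c0) :=
  univ.filter fun a => a.1.1 ∈ q

theorem mem_vld {fc : ι → Finset V} {q : Finset ι} {a : BI fc c0} :
    a ∈ vld fc c0 q ↔ a.1.1 ∈ q := by simp [vld]

theorem mix_cp (χ : V → C) (v : V) (x y : BI S.fc c0 → ℝ) :
    mix ((blow S c0).st (v, χ v)) x y ∘ cp S.fc c0 χ =
      mix (S.st v) (x ∘ cp S.fc c0 χ) (y ∘ cp S.fc c0 χ) := by
  funext k
  have : cp S.fc c0 χ k ∈ (blow S c0).st (v, χ v) ↔ k ∈ S.st v := by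
    rw [MS.mem_st, MS.mem_st, mem_fc_blow]
    exact ⟨fun h => h.1, fun h => ⟨h, cp_snd χ h⟩⟩
  simp only [Function.comp, mix, this]

theorem aff_cp (χ : V → C) {v : V} {θ : (ι → ℝ) → ℝ} (h : Aff (S.st v) θ) :
    Aff ((blow S c0).st (v, χ v)) fun z => θ (z ∘ cp S.fc c0 χ) := fun y => by
  simp only [mix_cp]
  exact ⟨fun a b => (h _).map_add _ _, fun a b => (h _).map_smul a _⟩

theorem lin_cp (χ : V → C) {v : V} {θ : (ι → ℝ) → ℝ} (h : Lin (S.st v) θ) :
    Lin ((blow S c0).st (v, χ v)) fun z => θ (z ∘ cp S.fc c0 χ) := fun y => by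
  simp only [mix_cp]
  exact ⟨fun a b => (h _).map_add _ _, fun a b => (h _).map_smul a _⟩

theorem ok_blow (h : S.Ok) (c0 : C) : (blow S c0).Ok := by
  refine ⟨?_, fun a b hab => ?_, fun a z z' hz => ?_, fun w a hw => ?_⟩
  · have h1 := (h.pd.kronecker (PosDef.one (n := V → C) (R := ℝ))).submatrix
      (e := fun a : BI S.fc c0 => a.1) Subtype.val_injective
    have h2 : (blow S c0).G = (S.G ⊗ₖ (1 : Matrix (V → C) (V → C) ℝ)).submatrix
        (fun a : BI S.fc c0 => a.1) fun a : BI S.fc c0 => a.1 := by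
      ext a b
      simp [blow, one_apply]
    rw [h2]
    exact h1
  · have h1 : a.1.2 = b.1.2 := by
      by_contra h1; exact hab (if_neg h1)
    have h2 := h.orth a.1.1 b.1.1 fun h0 => hab (by simp [blow, h0])
    exact ⟨by simp only [blow, h1, h2.1], h2.2⟩
  · refine h.loc _ _ _ fun j hj => hz _ ⟨fc_blow_sub.2 ⟨hj.1, fun v hv => cp_snd _ hv⟩, hj.2⟩
  · obtain ⟨v, c⟩ := w
    obtain ⟨h1, h2⟩ := mem_fc_blow.1 hw
    obtain rfl : a.1.2 v = c := h2
    exact aff_cp a.1.2 (h.aff v _ h1)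

theorem cen_blow (h : S.Cen) (c0 : C) : (blow S c0).Cen := by
  refine ⟨fun a => (h.ne _).image _, fun w a hw y => ?_⟩
  obtain ⟨v, c⟩ := w
  obtain ⟨h1, h2⟩ := mem_fc_blow.1 hw
  obtain rfl : a.1.2 v = c := h2
  change S.p (mix ((blow S c0).st (v, a.1.2 v)) 0 y ∘ cp S.fc c0 a.1.2) a.1.1 = 0
  rw [mix_cp]
  exact h.zero v _ h1 _

theorem Cls.vld {q : Finset ι} (h : Cls S q) (c0 : C) : Cls (blow S c0) (vld S.fc c0 q) :=
  ⟨fun _ _ a b hi => mem_vld.2 (h.blk _ _ (Subset.antisymm (fc_blow_sub.1 a.subset).1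
      (fc_blow_sub.1 a.superset).1) b (mem_vld.1 hi)),
    fun _ hi _ hj => mem_vld.2 (h.dep _ (mem_vld.1 hi) _ ⟨(fc_blow_sub.1 hj.1).1, hj.2⟩)⟩

omit [Fintype C] [Fintype ι] [DecidableEq ι] in
theorem blow_nar (W : ℝ) : blow (nar S W) c0 = nar (blow S c0) W := by
  simp only [blow, nar, MS.gram]
  congr 1
  ext a b
  simp only [of_apply, Matrix.smul_apply, smul_eq_mul, mul_ite, mul_zero]
  rfl

omit [Fintype C] in
theorem G_cp (h : S.Ok) (χ : V → C) (i j : ι) :
    (blow S c0).G (cp S.fc c0 χ i) (cp S.fc c0 χ j) = S.G i j := by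
  by_cases h0 : S.G i j = 0
  · simp [blow, cp, h0]
  · refine if_pos (funext fun v => ?_)
    simp only [cp, (h.orth i j h0).1]

omit [Fintype C] in
theorem p_cp (h : S.Ok) (χ : V → C) (z : BI S.fc c0 → ℝ) (i : ι) :
    (blow S c0).p z (cp S.fc c0 χ i) = S.p (z ∘ cp S.fc c0 χ) i :=
  h.loc _ _ _ fun _ hj => congrArg z (cp_congr fun _ hv => cp_snd χ (hj.1 hv))

/-- a transversal copy is closed -/
theorem Cls.image_cp {q : Finset ι} (h : Cls S q) (c0 : C) (χ : V → C) :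
    Cls (blow S c0) (q.image (cp S.fc c0 χ)) := by
  have key : ∀ k (b : BI S.fc c0), (blow S c0).fc b ⊆ (blow S c0).fc (cp S.fc c0 χ k) →
      cp S.fc c0 χ b.1.1 = b := fun k b hb => by
    obtain ⟨h1, h2⟩ := fc_blow_sub.1 hb
    rw [← cp_self b]
    exact cp_congr fun v hv => ((h2 v hv).trans (cp_snd χ (h1 hv))).symm
  constructor
  · intro a b hab hl ha
    obtain ⟨k, hk, rfl⟩ := mem_image.1 ha
    exact mem_image.2 ⟨b.1.1, h.blk k _ (Subset.antisymm (fc_blow_sub.1 hab.subset).1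
      (fc_blow_sub.1 hab.superset).1) hl hk, key k b hab.superset⟩
  · intro a ha b hb
    obtain ⟨k, hk, rfl⟩ := mem_image.1 ha
    exact mem_image.2 ⟨b.1.1, h.dep k hk _ ⟨(fc_blow_sub.1 hb.1).1, hb.2⟩, key k b hb.1⟩

theorem mass_cp (h : S.Ok) (χ : V → C) (q : Finset ι) :
    (blow S c0).mass (q.image (cp S.fc c0 χ)) = S.mass q :=
  mass_image (cp_inj _ _ _) (fun i _ j _ => G_cp h χ i j) fun z i _ => p_cp h χ z i

theorem bias_cp (h : S.Ok) (χ : V → C) (q : Finset ι) (θ : (ι → ℝ) → ℝ) :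
    (blow S c0).bias (q.image (cp S.fc c0 χ)) (fun z => θ (z ∘ cp S.fc c0 χ)) = S.bias q θ :=
  bias_image (cp_inj _ _ _) (fun i _ j _ => G_cp h χ i j) (fun z i _ => p_cp h χ z i) θ

omit [Fintype C] in
theorem vl_cp (h : S.Ok) (χ : V → C) (q : Finset ι) :
    vl (blow S c0).G (q.image (cp S.fc c0 χ)) = vl S.G q :=
  vl_image (cp_inj _ _ _) fun i _ j _ => G_cp h χ i j

/-- smoothness: all blow-ups with at most `N` copies, narrowed by `W`, have mass near one -/
def Smo (S : MS V ι) (q : Finset ι) (N : ℕ) (W η : ℝ) : Prop :=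
  ∀ (C : Type) [Fintype C] [DecidableEq C] (c0 : C), Fintype.card C ≤ N →
    (nar (blow S c0) W).mass (vld S.fc c0 q) ≤ 1 + η

omit [Fintype V] in
theorem nar_nar (W W' : ℝ) : nar (nar S W) W' = nar S (W * W') := by
  simp only [nar, MS.gram, smul_smul]
  congr 2
  ring

omit [Fintype V] in
theorem nar_one : nar S 1 = S := by simp [nar, MS.gram]

omit [Fintype V] in
theorem mass_nar_mono (h : S.Ok) (hc : S.Cen) {W W' : ℝ} (hW : 0 < W) (hW' : W ≤ W')
    (q : Finset ι) : (nar S W).mass q ≤ (nar S W').mass q :=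
  (ok_nar h hW.ne').mass_narrow (cen_nar hc W) (H := W' ^ 2 • S.G) (ok_nar h (by linarith))
    (fun x => by
      change qq (W ^ 2 • S.G) x ≤ _
      rw [qq_smul_mat, qq_smul_mat]
      exact mul_le_mul_of_nonneg_right (by gcongr) (qq_nonneg h.pd.posSemidef x)) q

omit [Fintype V] in
theorem Cls.nar {q : Finset ι} (h : Cls S q) (W : ℝ) : Cls (nar S W) q := ⟨h.blk, h.dep⟩

omit [Fintype V] in
theorem Cls.mass_mono (h : S.Ok) (hc : S.Cen) {q q' : Finset ι} (hq : Cls S q) (hq' : Cls S q')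
    (hqq : q' ⊆ q) : S.mass q' ≤ S.mass q :=
  h.mass_mono hc (hq'.sat h) q (hq.sat h) hqq fun i hi j _ hd => hq'.dep i hi j hd

theorem Smo.mono (h : S.Ok) (hc : S.Cen) {q q' : Finset ι} (hq : Cls S q) (hq' : Cls S q')
    {N N' : ℕ} {W W' η η' : ℝ} (hs : Smo S q N W η) (hqq : q' ⊆ q) (hN : N' ≤ N) (hW : 0 < W')
    (hW' : W' ≤ W) (hη : η ≤ η') : Smo S q' N' W' η' := by
  intro C _ _ c0 hC
  have h1 := hs C c0 (hC.trans hN)
  have hb := ok_blow h c0
  have hb' := cen_blow hc c0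
  have h2 := mass_nar_mono hb hb' hW hW' (vld S.fc c0 q')
  have h3 := Cls.mass_mono (ok_nar hb (by linarith : W ≠ 0)) (cen_nar hb' W) ((hq.vld c0).nar W)
    ((hq'.vld c0).nar W) fun a ha => mem_vld.2 (hqq (mem_vld.1 ha))
  exact h2.trans (h3.trans (h1.trans (by linarith)))

theorem Smo.mass (h : S.Ok) (hc : S.Cen) {q : Finset ι} (hq : Cls S q) {N : ℕ} {W η : ℝ}
    (hs : Smo S q N W η) (hN : 1 ≤ N) (hW : W ≠ 0) : (nar S W).mass q ≤ 1 + η := by
  have h1 := hs Unit () (by simpa using hN)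
  have h0 := ok_nar h hW
  rw [← blow_nar] at h1
  rw [← mass_cp (c0 := ()) h0 fun _ => ()]
  refine le_trans (Cls.mass_mono (ok_blow h0 ()) (cen_blow (cen_nar hc W) ()) ((hq.nar W).vld ())
    ((hq.nar W).image_cp () _) fun a ha => ?_) h1
  obtain ⟨k, hk, rfl⟩ := mem_image.1 ha
  exact mem_vld.2 hk

theorem Smo.nar {q : Finset ι} {N : ℕ} {W W' η : ℝ} (hs : Smo S q N (W * W') η) :
    Smo (nar S W) q N W' η := fun C _ _ c0 hC => by
  have := hs C c0 hC
  rw [← nar_nar, ← blow_nar] at this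
  exact this

end

end Vale.Agent.P057MA
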