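import Vale.Agent.P057MA.Lift

/-!
The complexity of a block (dual theta value), dual norms, crude mass bounds.
-/

set_option linter.all false

open Matrix Finset
open scoped Real
open Vale.Agent.P267.H775 Vale.Agent.P057G Vale.Agent.P057HU

namespace Vale.Agent.P057MA

noncomputable section

variable {V ι : Type*} [DecidableEq ι] [Fintype ι] [DecidableEq V] {S : MS V ι}

/-- the complexity of the block on `q` -/
def cx (G : Matrix ι ι ℝ) (q : Finset ι) : ℝ := th (blk G q)⁻¹ 0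

/-- the dual norm of `k` is at most `B` -/
def Dn (G : Matrix ι ι ℝ) (k : ι → ℤ) (B : ℝ) : Prop := ∀ u, (toR k ⬝ᵥ u) ^ 2 ≤ B ^ 2 * qq G u

/-- the system without centres -/
def nop (S : MS V ι) : MS V ι := { S with p := fun _ _ => 0 }

omit [DecidableEq V] [Fintype ι] in
theorem one_le_cx {G : Matrix ι ι ℝ} (hG : G.PosDef) (q : Finset ι) : 1 ≤ cx G q :=
  one_le_th_zero (posDef_blk hG q).inv

omit [DecidableEq V] in
theorem Dn.qq_le {G : Matrix ι ι ℝ} (hG : G.PosDef) {k : ι → ℤ} {B : ℝ} (h : Dn G k B) :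
    qq G⁻¹ (toR k) ≤ B ^ 2 := by
  have h1 := h (G⁻¹ *ᵥ toR k)
  rw [qq_inv hG] at h1
  have h2 : toR k ⬝ᵥ G⁻¹ *ᵥ toR k = qq G⁻¹ (toR k) := rfl
  rw [h2] at h1
  have h3 := qq_nonneg hG.inv.posSemidef (toR k)
  by_contra h4
  nlinarith [sq_nonneg B]

omit [DecidableEq V] in
theorem dn_of_qq {G : Matrix ι ι ℝ} (hG : G.PosDef) {k : ι → ℤ} {B : ℝ}
    (h : qq G⁻¹ (toR k) ≤ B ^ 2) : Dn G k B := fun u => by
  have h1 := dot_sq_le hG u (toR k)
  rw [dotProduct_comm] at h1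
  nlinarith [qq_nonneg hG.posSemidef u]

theorem ok_nop (h : S.Ok) : (nop S).Ok :=
  ⟨h.pd, h.orth, fun _ _ _ _ => rfl, fun _ _ _ => aff_const _ _⟩

theorem cen_nop (hne : ∀ i, (S.fc i).Nonempty) : (nop S).Cen := ⟨hne, fun _ _ _ _ => rfl⟩

theorem hasSum_cx (h : S.Ok) (q : Finset ι) :
    HasSum (fun k : q → ℤ => gs (blk S.G q)⁻¹ (toR k)) (cx S.G q) := by
  simpa only [sub_zero, cx] using hasSum_th (posDef_blk h.pd q).inv 0

/-- removing a set of top coordinates costs at most its complexity -/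
theorem mass_top_le (h : S.Ok) {q D : Finset ι} (hD : Sat S.G D)
    (hd : ∀ i ∈ q, ∀ j ∈ q ∩ D, ¬ S.Dep i j) :
    S.mass q ≤ cx S.G (q ∩ D) * S.mass (q \ D) := by
  have h1 := h.hasSum_top_re hD hd
  have h2 := ((hasSum_cx h (q ∩ D)).mul_left (vl S.G (q ∩ D))).mul_right
    (S.mass (q \ D) * vl S.G (q \ D))
  have h3 := hasSum_le (fun k => mul_le_mul_of_nonneg_left
    ((h.bias_le _ _).trans (h.hasSum_wt (q \ D)).tsum_eq.le)
    (mul_nonneg (vl_pos h.pd _).le (gs_pos _ _).le)) h1 h2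
  rw [MS.mass, div_le_iff₀ (vl_pos h.pd q), vl_split h.pd hD q]
  linarith

theorem mass_nop_split (h : S.Ok) {q D : Finset ι} (hD : Sat S.G D) :
    (nop S).mass q = cx S.G (q ∩ D) * (nop S).mass (q \ D) := by
  let S' : MS V ι := { nop S with lv := fun _ => 0 }
  have h' : S'.Ok := ⟨h.pd, fun i j hij => ⟨(h.orth i j hij).1, rfl⟩, fun _ _ _ _ => rfl,
    fun _ _ _ => aff_const _ _⟩
  have h1 := h'.hasSum_top_re (q := q) hD fun i _ j _ hd => absurd hd.2 (lt_irrefl 0)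
  have h2 := ((hasSum_cx h (q ∩ D)).mul_left (vl S.G (q ∩ D))).mul_right
    (S'.mass (q \ D) * vl S.G (q \ D))
  have h3 := h1.unique (h2.congr_fun fun k => by
    rw [MS.bias_zero _ fun z => by simp [S', nop], (h'.hasSum_wt (q \ D)).tsum_eq]; rfl)
  change S'.mass q = _ * S'.mass (q \ D)
  rw [MS.mass, div_eq_iff (vl_pos h'.pd q).ne', vl_split h'.pd hD q, h3]
  change _ = _ * (vl S.G (q ∩ D) * vl S.G (q \ D))
  ring

theorem mass_nop (h : S.Ok) {q : Finset ι} (hq : Sat S.G q) : (nop S).mass q = cx S.G q := by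
  rw [mass_nop_split h hq, inter_self, sdiff_self, bot_eq_empty, MS.mass_empty, mul_one]

theorem cx_split (h : S.Ok) {q D : Finset ι} (hq : Sat S.G q) (hD : Sat S.G D) :
    cx S.G q = cx S.G (q ∩ D) * cx S.G (q \ D) := by
  rw [← mass_nop h hq, mass_nop_split h hD, mass_nop h (hq.sdiff h.pd.1 hD)]

theorem cx_mono (h : S.Ok) {q q' : Finset ι} (hq : Sat S.G q) (hq' : Sat S.G q') (hqq : q' ⊆ q) :
    cx S.G q' ≤ cx S.G q := by
  rw [cx_split h hq hq', inter_eq_right.2 hqq]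
  exact le_mul_of_one_le_right (by linarith [one_le_cx h.pd q']) (one_le_cx h.pd _)

omit [DecidableEq V] [Fintype ι] in
theorem sat_union {G : Matrix ι ι ℝ} {q r : Finset ι} (hq : Sat G q) (hr : Sat G r) :
    Sat G (q ∪ r) := fun i j hi hj => by
  rcases mem_union.1 hi with h | h
  · exact hq i j h fun h2 => hj (mem_union_left _ h2)
  · exact hr i j h fun h2 => hj (mem_union_right _ h2)

theorem cx_union (h : S.Ok) {q r : Finset ι} (hq : Sat S.G q) (hr : Sat S.G r) :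
    cx S.G (q ∪ r) ≤ cx S.G q * cx S.G r := by
  rw [cx_split h (sat_union hq hr) hq, union_inter_cancel_left]
  exact mul_le_mul_of_nonneg_left (cx_mono h hr ((sat_union hq hr).sdiff h.pd.1 hq)
    (by rw [union_sdiff_left]; exact sdiff_subset)) (by linarith [one_le_cx h.pd q])

theorem cx_empty (G : Matrix ι ι ℝ) : cx G ∅ = 1 := by
  simp [cx, th, gs, qq]

theorem cx_biUnion (h : S.Ok) {A : Type*} [DecidableEq A] (s : Finset A) (f : A → Finset ι)
    (hf : ∀ a, Sat S.G (f a)) :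
    Sat S.G (s.biUnion f) ∧ cx S.G (s.biUnion f) ≤ ∏ a ∈ s, cx S.G (f a) := by
  induction s using Finset.induction_on with
  | empty => exact ⟨fun _ _ hi => by simp at hi, by simp [cx_empty]⟩
  | insert a s ha ih =>
    rw [biUnion_insert, prod_insert ha]
    exact ⟨sat_union (hf a) ih.1, (cx_union h (hf a) ih.1).trans
      (mul_le_mul_of_nonneg_left ih.2 (by linarith [one_le_cx h.pd (f a)]))⟩

omit [DecidableEq V] [Fintype ι] in
theorem cx_smul {G : Matrix ι ι ℝ} (hG : G.PosDef) {W : ℝ} (hW : 1 ≤ W) (q : Finset ι) :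
    cx (W ^ 2 • G) q ≤ W ^ q.card * cx G q := by
  have h0 : 0 < W := by linarith
  have h1 := th_smul_le (c := (W ^ 2)⁻¹) (by positivity)
    (inv_le_one_of_one_le₀ (one_le_pow₀ hW)) (posDef_blk hG q).inv 0
  rw [← inv_smul_mat (by positivity) (posDef_blk hG q), Real.sqrt_inv, inv_inv,
    Real.sqrt_sq h0.le, Fintype.card_coe] at h1
  exact h1

omit [DecidableEq V] [Fintype ι] in
theorem cx_le_of_le {G H : Matrix ι ι ℝ} (hG : G.PosDef) (hH : H.PosDef) {q : Finset ι}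
    (h : ∀ x, qq (blk G q) x ≤ qq (blk H q) x) : cx G q ≤ cx H q :=
  th_inv_mono (posDef_blk hG q) (posDef_blk hH q) h 0

theorem cx_image {V' ι' : Type*} [DecidableEq ι'] [Fintype ι'] [DecidableEq V'] {S' : MS V' ι'}
    (h : S.Ok) (h' : S'.Ok) {e : ι → ι'} (he : Function.Injective e) {q : Finset ι}
    (hq : Sat S.G q) (hq' : Sat S'.G (q.image e))
    (hG : ∀ i ∈ q, ∀ j ∈ q, S'.G (e i) (e j) = S.G i j) : cx S'.G (q.image e) = cx S.G q := by
  rw [← mass_nop h hq, ← mass_nop h' hq']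
  exact mass_image (S := nop S) (S' := nop S') he hG fun _ _ _ => rfl

variable {C : Type*} [Fintype V] [Fintype C] [DecidableEq C] {c0 : C}

theorem sat_vld {q : Finset ι} (hq : Sat S.G q) : Sat (blow S c0).G (vld S.fc c0 q) :=
  fun a b ha hb => by
    have := hq a.1.1 b.1.1 (mem_vld.1 ha) fun h => hb (mem_vld.2 h)
    simp [blow, this]

theorem sat_cp (h : S.Ok) {q : Finset ι} (hq : Sat S.G q) (χ : V → C) :
    Sat (blow S c0).G (q.image (cp S.fc c0 χ)) := fun a b ha hb => by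
  obtain ⟨k, hk, rfl⟩ := mem_image.1 ha
  by_contra h0
  have h1 : (cp S.fc c0 χ k).1.2 = b.1.2 := by
    by_contra h1; exact h0 (if_neg h1)
  have h2 : S.G k b.1.1 ≠ 0 := fun h2 => h0 (by simp [blow, cp, h2])
  refine hb (mem_image.2 ⟨b.1.1, by_contra fun h3 => h2 (hq _ _ hk h3), ?_⟩)
  refine Subtype.ext (Prod.ext rfl ?_)
  rw [← h1]
  funext v
  simp only [cp, (h.orth _ _ h2).1]

theorem vld_eq (q : Finset ι) :
    vld S.fc c0 q = univ.biUnion fun χ : V → C => q.image (cp S.fc c0 χ) := by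
  ext a
  simp only [mem_vld, mem_biUnion, mem_univ, true_and, mem_image]
  exact ⟨fun h => ⟨a.1.2, a.1.1, h, cp_self a⟩, fun ⟨χ, k, hk, e⟩ => e ▸ hk⟩

theorem card_vld (q : Finset ι) :
    (vld S.fc c0 q).card ≤ Fintype.card C ^ Fintype.card V * q.card := by
  rw [vld_eq]
  refine (card_biUnion_le_card_mul _ _ q.card fun _ _ => card_image_le).trans (le_of_eq ?_)
  simp

theorem cx_vld (h : S.Ok) {q : Finset ι} (hq : Sat S.G q) :
    cx (blow S c0).G (vld S.fc c0 q) ≤ cx S.G q ^ (Fintype.card C ^ Fintype.card V) := by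
  rw [vld_eq]
  refine (cx_biUnion (ok_blow h c0) _ _ (sat_cp h hq)).2.trans (le_of_eq ?_)
  rw [prod_congr rfl fun χ _ => cx_image h (ok_blow h c0) (cp_inj _ _ χ) hq (sat_cp h hq χ)
    fun i _ j _ => G_cp h χ i j]
  simp

end

end Vale.Agent.P057MA
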