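import Vale.Agent.P057MA.Mor

/-!
Regularisation of new top coordinates over a smooth centred system.
-/

set_option linter.all false

open Matrix Finset
open scoped Real
open Vale.Agent.P267.H775 Vale.Agent.P057G Vale.Agent.P057HU Vale.Agent.P057ST

namespace Vale.Agent.P057MA

noncomputable section

section gen

variable {V ι κ κ' : Type*} [DecidableEq V] [DecidableEq ι] [Fintype ι] [DecidableEq κ] [Fintype κ]
  [Fintype κ'] {S : MS V ι} {fn : κ → Finset V} {Gn : Matrix κ κ ℝ} {pn : (ι → ℝ) → κ → ℝ}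

theorem fm_mulVec {fn' : κ' → Finset V} {M : Matrix κ κ' ℝ} (hM : Ort fn fn' M)
    {x : (ι → ℝ) → κ' → ℝ} (hx : ∀ j, Fm S (fce S (fn' j)) (fn' j) fun z => x z j) (i : κ) :
    Fm S (fce S (fn i)) (fn i) fun z => (M *ᵥ x z) i := by
  refine Fm.sum univ fun j _ => ?_
  by_cases h : M i j = 0
  · simpa only [h, zero_mul] using Fm.zero S _ _
  · rw [hM i j h]; exact (hx j).smul _

theorem mix_elim (v : V) (x y : ι → ℝ) : Sum.elim (mix (S.st v) x y) (0 : κ → ℝ) =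
    mix ((top S fn Gn pn).st v) (Sum.elim x 0) (Sum.elim y 0) := by
  funext a
  rcases a with i | j
  · simp only [Sum.elim_inl, mix, MS.mem_st]; rfl
  · simp [mix]

/-- a relation among the new coordinates, read on the old system -/
theorem rl_top (h : S.Ok) (ht : TopOk S fn Gn pn) {B Q H : ℝ} {F : Finset V} {k : ι ⊕ κ → ℤ}
    {n : ℕ} (hr : Rl (top S fn Gn pn) univ (univ.sup S.lv + 1) B Q H F k n) :
    (k ∘ Sum.inr ≠ 0) ∧ (∀ j, (k ∘ Sum.inr) j ≠ 0 → fn j = F) ∧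
      qq Gn⁻¹ (toR (k ∘ Sum.inr)) ≤ B ^ 2 ∧ ∃ J, Fm S (fce S F) F J ∧ IntV J ∧
        Nle S (fce S F) (fun z => n * (toR (k ∘ Sum.inr) ⬝ᵥ pn z) - J z) H := by
  obtain ⟨r1, r2, r3, _, _, J, j1, j2, j3⟩ := hr
  have h0 : ∀ i, k (Sum.inl i) = 0 := fun i => by_contra fun e => (lv_lt (S := S) i).ne (r1 _ e).2.2
  have e : univ ∩ low (top S fn Gn pn) (univ.sup S.lv + 1) ∩ fce (top S fn Gn pn) F =
      (fce S F).image Sum.inl := by
    rw [univ_inter, low_top]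
    ext a
    rcases a with i | j <;> simp [mem_fce, top]
  rw [e] at j1 j3
  refine ⟨fun e => r2 (funext fun a => ?_), fun j hj => (r1 _ hj).2.1, Dn.qq_le ht.pd fun u => ?_,
    fun z => J (Sum.elim z 0), ⟨fun z z' hz => j1.on _ _ fun a ha => ?_, fun v hv y => ?_⟩,
    fun z => ?_, fun z hz => ?_⟩
  · rcases a with i | j
    exacts [h0 i, congrFun e j]
  · have := r3 (Sum.elim 0 u)
    rw [show (top S fn Gn pn).G = fromBlocks S.G 0 0 Gn from rfl, qq_fromBlocks] at this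
    simpa [dotProduct, Fintype.sum_sum_type, qq_zero] using this
  · obtain ⟨i, hi, rfl⟩ := mem_image.1 ha
    exact hz i hi
  · simp only [mix_elim (fn := fn) (Gn := Gn) (pn := pn)]
    refine ⟨fun a b => ?_, fun a b => ?_⟩
    · rw [← (j1.lin v hv _).map_add]
      congr 2; funext c; rcases c with i | j <;> simp
    · rw [← (j1.lin v hv _).map_smul]
      congr 2; funext c; rcases c with i | j <;> simp
  · obtain ⟨m, hm⟩ := j2 (Sum.elim z 0)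
    refine ⟨m, Eq.trans (congrArg J (funext fun c => ?_)) hm⟩
    rcases c with i | j <;> simp
  · have := j3 (Sum.elim z 0) (by
      rwa [ln2_image (S := S) Sum.inl_injective (fun _ _ _ _ => rfl) fun _ _ _ => rfl])
    simpa [kp, Fintype.sum_sum_type, h0, dotProduct, top] using this

theorem ball_step (h : S.Ok) (hc : S.Cen) {B0 F : Finset V} {b : V} (hb : b ∈ F ∩ B0)
    {R0 : (ι → ℝ) → ℝ} (hR : Fm S (fce S F) F R0) {H d Λ E : ℝ} (hH : Nle S (fce S F) R0 H)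
    (hd : 0 < d) (hΛ : 2 * d ≤ Λ) (hΛ2 : 2 * H * 2 ^ F.card * E ≤ Λ) (hE : 0 ≤ E) {y : ι → ℝ}
    (hy : ln2 S univ (scl S B0 Λ y) ≤ 1) :
    ln2 S univ (scl S B0 d y) + (d ^ ((F ∩ B0).card - 1) * R0 y * E) ^ 2 ≤
      ln2 S univ (scl S B0 Λ y) := by
  have hΛ0 : 0 < Λ := by linarith
  set y' := scl S B0 Λ y with hy'
  have e1 : scl S B0 d y = scl S B0 (d / Λ) y' := by
    rw [hy', scl_scl, div_mul_cancel₀ _ hΛ0.ne']
  have t0 : 0 ≤ d / Λ := by positivity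
  have t1 : d / Λ ≤ 1 / 2 := by rw [div_le_iff₀ hΛ0]; linarith
  have h1 := ln2_scl (q := univ ∩ S.st b) h hc B0 (t := d / Λ) (s := 1 / 2) (fun i hi => by
    have := pow_le_pow_of_le_one t0 (by linarith) (card_pos.2
      ⟨b, mem_inter.2 ⟨S.mem_st.1 (mem_inter.1 hi).2, (mem_inter.1 hb).2⟩⟩)
    rw [pow_one] at this
    exact pow_le_pow_left₀ (by positivity) (this.trans t1) 2) y'
  have h2 := ln2_scl (q := univ \ S.st b) h hc B0 (t := d / Λ) (s := 1) (fun i _ =>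
    pow_le_pow_left₀ (by positivity) (pow_le_one₀ t0 (by linarith)) 2) y'
  have h3 := hH.part h hc hR.lin (fun i hi => by
    rw [inter_eq_left.2 (mem_fce.1 hi)]; exact hc.ne i) (mem_inter.1 hb).1 (z := y')
    ((ln2_mono h (cls_fce S F) (subset_univ _) y').trans hy)
  have h4 : ln2 S (fce S F ∩ S.st b) y' ≤ ln2 S (univ ∩ S.st b) y' :=
    qq_msk_le h.pd (((cls_fce S F).sat h).inter (h.sat_st b))
      (inter_subset_inter (subset_univ _) Subset.rfl) _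
  have h5 := ln2_nonneg (q := univ ∩ S.st b) h y'
  have hH0 : 0 ≤ H := (abs_nonneg _).trans (hH y'
    ((ln2_mono h (cls_fce S F) (subset_univ _) y').trans hy))
  obtain ⟨e, he⟩ : ∃ e, (F ∩ B0).card = e + 1 :=
    Nat.exists_eq_succ_of_ne_zero (card_pos.2 ⟨b, hb⟩).ne'
  have h6 : R0 y' = Λ ^ (e + 1) * R0 y := by rw [hy', hR.scl, he]
  have h7 : (d ^ e * R0 y * E) ^ 2 * Λ ^ 2 ≤ R0 y' ^ 2 * E ^ 2 := by
    have : (d ^ e) ^ 2 ≤ (Λ ^ e) ^ 2 := by gcongr; linarith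
    rw [h6, pow_succ Λ e]
    nlinarith [mul_nonneg (sq_nonneg (R0 y * E * Λ)) (sub_nonneg.2 this)]
  have h8 : H ^ 2 * 4 ^ F.card * E ^ 2 * 4 ≤ Λ ^ 2 := by
    have := pow_le_pow_left₀ (by positivity) hΛ2 2
    rw [show (4 : ℝ) ^ F.card = (2 ^ F.card) ^ 2 by rw [← pow_mul, mul_comm, pow_mul]; norm_num]
    nlinarith
  have h9 : (d ^ e * R0 y * E) ^ 2 ≤ ln2 S (univ ∩ S.st b) y' / 4 := by
    refine le_of_mul_le_mul_right (h7.trans ?_) (by positivity : 0 < Λ ^ 2)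
    have a1 := mul_le_mul_of_nonneg_right (h3.trans (mul_le_mul_of_nonneg_left h4
      (by positivity))) (sq_nonneg E)
    nlinarith [mul_le_mul_of_nonneg_left h8 h5]
  rw [e1, he, Nat.add_sub_cancel, ln2_split h (h.sat_st b), ln2_split h (h.sat_st b) univ y']
  linarith

/-- the new coordinates run through a sublattice `L`, shifted by the integer forms `J`; the new
centres are the orthogonal projections of the old ones `x` -/
structure Ls [DecidableEq κ'] (fn : κ → Finset V) (fn' : κ' → Finset V) (Gn : Matrix κ κ ℝ)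
    (Gn' : Matrix κ' κ' ℝ) (x : (ι → ℝ) → κ → ℝ) (pn' : (ι → ℝ) → κ' → ℝ)
    (P : (ι ⊕ κ' → ℝ) → ι ⊕ κ → ℝ) (L : Matrix κ κ' ℤ) (L' : Matrix κ' κ ℤ)
    (J : (ι → ℝ) → κ → ℝ) : Prop where
  inv : L' * L = 1
  ort : Ort fn fn' L
  gram : Gn' = (mR L)ᵀ * Gn * mR L
  map : ∀ z, P z ∘ Sum.inr = J (z ∘ Sum.inl) + mR L *ᵥ (z ∘ Sum.inr)
  cen : ∀ y, pn' y = Gn'⁻¹ *ᵥ ((mR L)ᵀ *ᵥ (Gn *ᵥ (x y - J y)))

/-- one elimination -/
theorem ext_step [Fintype V] (h : S.Ok) (hc : S.Cen) (ht : TopOk S fn Gn pn) {B0 : Finset V}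
    (hB0 : ∀ j, (fn j ∩ B0).Nonempty) {B Q H E Λ : ℝ} {F : Finset V} {k : ι ⊕ κ → ℤ} {n : ℕ}
    (hr : Rl (top S fn Gn pn) univ (univ.sup S.lv + 1) B Q H F k n) (hB : 1 ≤ B) (hH : 0 ≤ H)
    (hE : th Gn⁻¹ 0 ≤ E) (h1 : 2 * Q * B * E ≤ Λ) (h2 : 2 * H * 2 ^ Fintype.card V * E ≤ Λ) :
    ∃ (j0 : κ) (d : ℕ) (Gn' : Matrix {j // j ≠ j0} {j // j ≠ j0} ℝ)
      (pn' : (ι → ℝ) → {j // j ≠ j0} → ℝ) (P : (ι ⊕ {j // j ≠ j0} → ℝ) → ι ⊕ κ → ℝ),
      0 < d ∧ (d : ℝ) ≤ Λ ∧ TopOk (dil S B0 Λ) (fun j => fn j.1) Gn' pn' ∧ th Gn'⁻¹ 0 ≤ B * E ∧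
      Mor (top (dil S B0 Λ) (fun j => fn j.1) Gn' pn') (top S fn Gn pn) P ∧
      (∀ z, P z ∘ Sum.inl = scl S B0 d (z ∘ Sum.inl)) ∧
      ∃ L L' J, Ls fn (fun j => fn j.1) Gn Gn' (fun y => pn (scl S B0 d y)) pn' P L L' J := by
  obtain ⟨k1, k2, k3, J, j1, j2, j3⟩ := rl_top h ht hr
  obtain ⟨_, _, _, n1, n2, _⟩ := hr
  obtain ⟨j0, g, k0, a, L, L', f0, g0, hk, sh⟩ := exists_sh fn k1 k2
  have E1 := (one_le_th_zero ht.pd.inv).trans hE
  have s0 := qq_pos ht.pd.inv (toR_ne sh.ne)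
  set s2 := qq Gn⁻¹ (toR k0) with hs2
  have ek : toR (k ∘ Sum.inr) = (g : ℝ) • toR k0 := by rw [hk]; funext i; simp
  rw [ek, qq_smul] at k3
  have g1 : (1 : ℝ) ≤ |(g : ℝ)| := by exact_mod_cast Int.one_le_abs g0
  have s1 : 1 ≤ √s2 * E := (one_le_mul_th ht.pd.inv sh.ne).trans
    (mul_le_mul_of_nonneg_left hE (Real.sqrt_nonneg _))
  have s3 : |(g : ℝ)| * √s2 ≤ B := by
    rw [← Real.sqrt_sq_eq_abs, ← Real.sqrt_mul (sq_nonneg _)]
    exact Real.sqrt_le_iff.2 ⟨by linarith, k3⟩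
  have s4 : √s2 ≤ B := le_trans (le_mul_of_one_le_left (Real.sqrt_nonneg _) g1) s3
  have g2 : |(g : ℝ)| ≤ B * E := by nlinarith
  set d : ℕ := n * g.natAbs with hd
  have d0 : 0 < d := Nat.mul_pos n1 (Int.natAbs_pos.2 g0)
  have d1 : (d : ℝ) = n * |(g : ℝ)| := by rw [hd]; push_cast; rw [Nat.cast_natAbs]; push_cast; rfl
  have d2 : 2 * (d : ℝ) ≤ Λ := by
    have := mul_le_mul n2 g2 (abs_nonneg _) ((Nat.cast_nonneg n).trans n2)
    rw [d1]; linarith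
  have d3 : (1 : ℝ) ≤ d := by exact_mod_cast d0
  obtain ⟨b, hb⟩ := hB0 j0
  rw [f0] at hb
  obtain ⟨e, he⟩ : ∃ e, (F ∩ B0).card = e + 1 :=
    Nat.exists_eq_succ_of_ne_zero (card_pos.2 ⟨b, hb⟩).ne'
  let c : ℤ := d ^ e * g.sign
  let x : (ι → ℝ) → κ → ℝ := fun z => pn (scl S B0 d z) - (c * J z) • toR a
  have hta : ∀ j, Fm S (fce S (fn j)) (fn j) fun z => (c * J z) * (a j : ℝ) := fun j => by
    by_cases h0 : a j = 0
    · simpa only [h0, Int.cast_zero, mul_zero] using Fm.zero S _ _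
    · rw [sh.oa j h0, f0]
      simpa only [mul_comm (a j : ℝ)] using (j1.smul c).smul (a j)
  have hx : ∀ j, Fm S (fce S (fn j)) (fn j) fun z => x z j := fun j => by
    have := ((ht.fm j).smul ((d : ℝ) ^ (fn j ∩ B0).card)).sub (hta j)
    simp only [← (ht.fm j).scl] at this
    exact this
  have hk0 : Fm S (fce S F) F fun z => toR k0 ⬝ᵥ pn z := Fm.sum univ fun j _ => by
    by_cases h0 : k0 j = 0
    · simpa [h0] using Fm.zero S _ _
    · rw [← f0, ← sh.ok j h0]; exact (ht.fm j).smul _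
  have hR0 : Fm S (fce S F) F fun z => n * (toR (k ∘ Sum.inr) ⬝ᵥ pn z) - J z := by
    simp only [ek, smul_dotProduct, smul_eq_mul]
    exact ((hk0.smul _).smul _).sub j1
  have hRx : ∀ z, (toR k0 ⬝ᵥ x z) ^ 2 =
      ((d : ℝ) ^ e * (n * (toR (k ∘ Sum.inr) ⬝ᵥ pn z) - J z)) ^ 2 := fun z => by
    have a1 := hk0.scl B0 d z
    have a2 : (g.sign : ℝ) * g = |(g : ℝ)| := by exact_mod_cast Int.sign_mul_self_eq_abs g
    have a3 : (g.sign : ℝ) ^ 2 = 1 := by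
      rcases lt_or_gt_of_ne g0 with h | h
      · simp [Int.sign_eq_neg_one_of_neg h]
      · simp [Int.sign_eq_one_of_pos h]
    have a4 : toR k0 ⬝ᵥ x z = g.sign * ((d : ℝ) ^ e * (n * (toR (k ∘ Sum.inr) ⬝ᵥ pn z) - J z)) := by
      simp only [x, dotProduct_sub, dotProduct_smul, sh.dot_a, smul_eq_mul, a1, he, ek,
        smul_dotProduct, c, pow_succ]
      push_cast
      rw [d1, ← a2]; ring
    rw [a4, mul_pow, a3, one_mul]
  have hΛ1 : 1 ≤ Λ := by linarith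
  have oG : Ort (fun j : {j // j ≠ j0} => fn j.1) (fun j => fn j.1) ((mR L)ᵀ * Gn * mR L) :=
    (sh.oL.mR.transpose.mul ht.ort).mul sh.oL.mR
  let T' := top (dil S B0 Λ) (fun j : {j // j ≠ j0} => fn j.1) ((mR L)ᵀ * Gn * mR L) fun z =>
    ((mR L)ᵀ * Gn * mR L)⁻¹ *ᵥ ((mR L)ᵀ *ᵥ (Gn *ᵥ x z))
  refine ⟨j0, d, (mR L)ᵀ * Gn * mR L,
    fun z => ((mR L)ᵀ * Gn * mR L)⁻¹ *ᵥ ((mR L)ᵀ *ᵥ (Gn *ᵥ x z)),
    fun z => Sum.elim (scl S B0 d (z ∘ Sum.inl))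
      ((c * J (z ∘ Sum.inl)) • toR a + mR L *ᵥ (z ∘ Sum.inr)), d0, by linarith,
    ⟨sh.pd ht.pd, oG, fun j => ht.ne j, fun j => ?_⟩,
    (sh.th_le ht.pd).trans (mul_le_mul s4 hE (th_nonneg _ _) (by linarith)),
    ⟨fun i => ?_, fun i => ?_, fun z hz => ?_⟩, fun z => rfl,
    L, L', fun z => (c * J z) • toR a, sh.LL, sh.oL, rfl, fun z => rfl, fun y => rfl⟩
  · have := fm_mulVec (oG.inv (sh.pd ht.pd).det_pos.ne'.isUnit)
      (fm_mulVec sh.oL.mR.transpose (fm_mulVec ht.ort hx)) j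
    exact ⟨this.on, this.lin⟩
  · rcases i with i | j
    · exact ((mor_id T').fm (Sum.inl i)).smul _
    · have a1 : Fm (dil S B0 Λ) _ _ _ := ⟨(hta j).on, (hta j).lin⟩
      exact a1.inl.add (fm_mulVec (S := T') (x := fun z => z ∘ Sum.inr) sh.oL.mR
        (fun j => (mor_id T').fm (Sum.inr j)) j)
  · rcases i with i | j
    · have := (IntV.const ((d : ℤ) ^ (S.fc i ∩ B0).card)).mul
        (IntV.coord (Sum.inl i : ι ⊕ {j // j ≠ j0}))
      push_cast at this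
      exact this
    · refine IntV.add (((IntV.const c).mul fun z => j2 (z ∘ Sum.inl)).mul (IntV.const (a j)))
        (IntV.sum univ fun l _ => (IntV.const (L j l)).mul (IntV.coord _))
  · rw [ln2_top] at hz ⊢
    rw [ln2_dil h hc] at hz
    have a1 : (c * J (z ∘ Sum.inl)) • toR a + mR L *ᵥ (z ∘ Sum.inr) -
        pn (scl S B0 d (z ∘ Sum.inl)) = mR L *ᵥ (z ∘ Sum.inr) - x (z ∘ Sum.inl) := by
      simp only [x]; abel
    change ln2 S univ (scl S B0 d (z ∘ Sum.inl)) + qq Gn ((c * J (z ∘ Sum.inl)) • toR a +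
      mR L *ᵥ (z ∘ Sum.inr) - pn (scl S B0 d (z ∘ Sum.inl))) ≤ 1
    rw [a1, sh.qq_eq ht.pd, hRx, ← hs2]
    have a2 := qq_nonneg (sh.pd ht.pd).posSemidef (z ∘ Sum.inr -
      ((mR L)ᵀ * Gn * mR L)⁻¹ *ᵥ ((mR L)ᵀ *ᵥ (Gn *ᵥ x (z ∘ Sum.inl))))
    have a3 := ball_step h hc hb hR0 j3 (d := d) (Λ := Λ) (E := E) (by linarith) d2
      (le_trans (by
        have : (2 : ℝ) ^ F.card ≤ 2 ^ Fintype.card V :=
          pow_le_pow_right₀ (by norm_num) (card_le_univ F)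
        gcongr) h2) (by linarith) (y := z ∘ Sum.inl) (by linarith)
    rw [he, Nat.add_sub_cancel, mul_pow _ E] at a3
    have a4 : 1 ≤ s2 * E ^ 2 := by
      have := one_le_pow₀ (n := 2) s1
      rwa [mul_pow, Real.sq_sqrt s0.le] at this
    have a5 : ∀ t : ℝ, t ^ 2 / s2 ≤ t ^ 2 * E ^ 2 := fun t => by
      rw [div_le_iff₀ s0]; nlinarith [sq_nonneg t]
    linarith [a5 ((d : ℝ) ^ e * (n * (toR (k ∘ Sum.inr) ⬝ᵥ pn (z ∘ Sum.inl)) - J (z ∘ Sum.inl)))]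

end gen

variable {V ι : Type} [DecidableEq V] [Fintype V] [DecidableEq ι] [Fintype ι]

/-- the output of the regularisation -/
def ExtOut (S : MS V ι) (B0 : Finset V) {κ : Type} [Fintype κ] [DecidableEq κ] (fn : κ → Finset V)
    (Gn : Matrix κ κ ℝ) (pn : (ι → ℝ) → κ → ℝ) (N : ℕ) (W η Lam E : ℝ) : Prop :=
  ∃ (κ' : Type) (_ : Fintype κ') (_ : DecidableEq κ') (e : κ' → κ) (d : ℕ) (lam : ℝ)
    (Gn' : Matrix κ' κ' ℝ) (pn' : (ι → ℝ) → κ' → ℝ) (P : (ι ⊕ κ' → ℝ) → ι ⊕ κ → ℝ),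
    Function.Injective e ∧ 0 < d ∧ (d : ℝ) ≤ lam ∧ lam ≤ Lam ∧
    TopOk (dil S B0 lam) (fun j => fn (e j)) Gn' pn' ∧ th Gn'⁻¹ 0 ≤ E ∧
    Mor (top (dil S B0 lam) (fun j => fn (e j)) Gn' pn') (top S fn Gn pn) P ∧
    (∀ z, P z ∘ Sum.inl = scl S B0 d (z ∘ Sum.inl)) ∧
    Smo (top (dil S B0 lam) (fun j => fn (e j)) Gn' pn') univ N W η

/-- the output of the regularisation with the description of the new lattice -/
def ExtOut2 (S : MS V ι) (B0 : Finset V) {κ : Type} [Fintype κ] [DecidableEq κ] (fn : κ → Finset V)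
    (Gn : Matrix κ κ ℝ) (pn : (ι → ℝ) → κ → ℝ) (N : ℕ) (W η Lam E : ℝ) : Prop :=
  ∃ (κ' : Type) (_ : Fintype κ') (_ : DecidableEq κ') (e : κ' → κ) (d : ℕ) (lam : ℝ)
    (Gn' : Matrix κ' κ' ℝ) (pn' : (ι → ℝ) → κ' → ℝ) (P : (ι ⊕ κ' → ℝ) → ι ⊕ κ → ℝ),
    Function.Injective e ∧ 0 < d ∧ (d : ℝ) ≤ lam ∧ lam ≤ Lam ∧
    TopOk (dil S B0 lam) (fun j => fn (e j)) Gn' pn' ∧ th Gn'⁻¹ 0 ≤ E ∧
    Mor (top (dil S B0 lam) (fun j => fn (e j)) Gn' pn') (top S fn Gn pn) P ∧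
    (∀ z, P z ∘ Sum.inl = scl S B0 d (z ∘ Sum.inl)) ∧
    Smo (top (dil S B0 lam) (fun j => fn (e j)) Gn' pn') univ N W η ∧
    ∃ L L' J, Ls fn (fun j => fn (e j)) Gn Gn' (fun y => pn (scl S B0 d y)) pn' P L L' J

theorem ExtOut2.out {S : MS V ι} {B0 : Finset V} {κ : Type} [Fintype κ] [DecidableEq κ]
    {fn : κ → Finset V} {Gn : Matrix κ κ ℝ} {pn : (ι → ℝ) → κ → ℝ} {N : ℕ} {W η Lam E : ℝ}
    (h : ExtOut2 S B0 fn Gn pn N W η Lam E) : ExtOut S B0 fn Gn pn N W η Lam E := by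
  obtain ⟨κ', _, _, e, d, lam, G, p, P, d1, d2, d3, d4, d5, d6, d7, d8, d9, -⟩ := h
  exact ⟨κ', inferInstance, inferInstance, e, d, lam, G, p, P, d1, d2, d3, d4, d5, d6, d7, d8, d9⟩

theorem ext_ind {c : ℕ} (hB : BP V c) (B0 : Finset V) {N N0 r0 : ℕ} {W W1 η0 D δ R E E2 η Λ : ℝ}
    (hW : 1 ≤ W) (hW1 : 1 ≤ W1) (hδ : 0 < δ) (hδ1 : δ ≤ 1 / 2) (hD : 2 ≤ D)
    (hιD : (Fintype.card ι + r0 : ℝ) ≤ D) (h1 : (D / δ) ^ c ≤ W1) (h2 : η0 ≤ (δ / D) ^ c)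
    (h3 : c ≤ N0) (hN : N ≤ N0) (hη0 : η0 ≤ 1) (hR : 1 ≤ R) (hΛ : 1 ≤ Λ)
    (hE : ((2 * W) ^ r0 * E) ^ N ^ Fintype.card V ≤ E2)
    (hη : η0 + (δ + Fintype.card V * N * η0 + 2 * Real.exp (-(π * R ^ 2 / 2))) * E2 ≤ η)
    (h4 : 2 * (D / δ) ^ c * (W * R) * E ≤ Λ)
    (h5 : 2 * ((D / δ) ^ c * W ^ Fintype.card V) * 2 ^ Fintype.card V * E ≤ Λ) (r : ℕ) :
    ∀ (S : MS V ι) (κ : Type) [Fintype κ] [DecidableEq κ] (fn : κ → Finset V) (Gn : Matrix κ κ ℝ)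
      (pn : (ι → ℝ) → κ → ℝ), S.Ok → S.Cen → TopOk S fn Gn pn → (∀ j, (fn j ∩ B0).Nonempty) →
      Fintype.card κ ≤ r → r ≤ r0 → th Gn⁻¹ 0 * (W * R) ^ r ≤ E →
      Smo S univ N0 (W * W1 * (Λ ^ B0.card) ^ r) η0 → ExtOut2 S B0 fn Gn pn N W η (Λ ^ r) E := by
  have hB1 : 1 ≤ W * R := one_le_mul_of_one_le_of_one_le hW hR
  have fin : ∀ (r : ℕ) (S : MS V ι) (κ : Type) [Fintype κ] [DecidableEq κ] (fn : κ → Finset V)
      (Gn : Matrix κ κ ℝ) (pn : (ι → ℝ) → κ → ℝ), S.Ok → S.Cen → TopOk S fn Gn pn →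
      Fintype.card κ ≤ r → r ≤ r0 → th Gn⁻¹ 0 * (W * R) ^ r ≤ E →
      Smo S univ N0 (W * W1 * (Λ ^ B0.card) ^ r) η0 →
      NoRl (top S fn Gn pn) univ (univ.sup S.lv + 1) (W * R) ((D / δ) ^ c)
        ((D / δ) ^ c * W ^ Fintype.card V) → ExtOut2 S B0 fn Gn pn N W η (Λ ^ r) E := by
    intro r S κ _ _ fn Gn pn h hc ht a1 a2 a3 a4 a5
    have b1 : th Gn⁻¹ 0 ≤ E :=
      le_trans (le_mul_of_one_le_right (th_nonneg _ _) (one_le_pow₀ hB1)) a3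
    have b2 : univ \ low (top S fn Gn pn) (univ.sup S.lv + 1) = univ.image Sum.inr := by
      rw [low_top]; ext a; rcases a with i | j <;> simp
    refine ⟨κ, inferInstance, inferInstance, id, 1, 1, Gn, pn, fun z => z, fun _ _ e => e,
      one_pos, by simp, one_le_pow₀ hΛ, ?_, b1, ?_, fun z => by simp [scl_one], ?_, 1, 1, 0,
      mul_one _, ort_one _, by simp [mR_one], fun z => by simp [mR_one],
      fun y => by simp [mR_one, scl_one, inv_mulVec ht.pd]⟩ <;>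
      rw [dil_one]
    · exact ht
    · exact mor_id _
    refine smo_step hB (ok_top h ht) (cen_top h hc ht) (cls_univ _) (l := univ.sup S.lv + 1)
      (fun i _ => ?_) hW hW1 ?_ hδ hδ1 hD ?_ h1 h2 h3 hN hη0 (le_trans ?_ hE) a5 hη
    · rcases i with i | j
      exacts [(lv_lt (S := S) i).le, le_rfl]
    · rw [univ_inter, low_top, smo_top]
      exact a4.mono h hc (cls_univ S) (cls_univ S) Subset.rfl le_rfl (by positivity)
        (le_mul_of_one_le_right (by positivity) (one_le_pow₀ (one_le_pow₀ hΛ))) le_rfl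
    · rw [card_univ, Fintype.card_sum]
      push_cast
      have : (Fintype.card κ : ℝ) ≤ r0 := by exact_mod_cast a1.trans a2
      linarith
    · erw [b2, cx_top]
      have := th_nonneg Gn⁻¹ 0
      refine pow_le_pow_left₀ (by positivity) (mul_le_mul (pow_le_pow_right₀ (by linarith)
        (card_image_le.trans (a1.trans a2))) b1 this (by positivity)) _
  induction r with
  | zero =>
    intro S κ _ _ fn Gn pn h hc ht _ a1 a2 a3 a4
    refine fin 0 S κ fn Gn pn h hc ht a1 a2 a3 a4 fun F k n hr => ?_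
    haveI : IsEmpty κ := Fintype.card_eq_zero_iff.1 (Nat.le_zero.1 a1)
    exact (rl_top h ht hr).1 (funext fun j => isEmptyElim j)
  | succ r ih =>
    intro S κ _ _ fn Gn pn h hc ht hb a1 a2 a3 a4
    by_cases a5 : NoRl (top S fn Gn pn) univ (univ.sup S.lv + 1) (W * R) ((D / δ) ^ c)
        ((D / δ) ^ c * W ^ Fintype.card V)
    · exact fin _ S κ fn Gn pn h hc ht a1 a2 a3 a4 a5
    simp only [NoRl, not_forall, not_not] at a5
    obtain ⟨F, k, n, hr⟩ := a5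
    have b1 : th Gn⁻¹ 0 ≤ E :=
      le_trans (le_mul_of_one_le_right (th_nonneg _ _) (one_le_pow₀ hB1)) a3
    obtain ⟨j0, d, Gn', pn', P, c1, c2, c3, c4, c5, c6, L, K, J, c7⟩ := ext_step h hc ht hb hr hB1
      (by positivity) le_rfl (Λ := Λ) (le_trans (by gcongr) h4) (le_trans (by gcongr) h5)
    obtain ⟨κ', _, _, e, d', lam, Gn'', pn'', P', d1, d2, d3, d4, d5, d6, d7, d8, d9, L', K', J',
      d10⟩ := ih (dil S B0 Λ) _ _ Gn' pn' (ok_dil h B0 hΛ) (cen_dil hc B0 Λ) c3 (fun j => hb j) (by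
        rw [Fintype.card_subtype_compl, Fintype.card_subtype_eq]; omega) (by omega)
        (le_trans (by
          rw [pow_succ, mul_comm _ (W * R), ← mul_assoc, mul_comm _ (W * R)]
          exact mul_le_mul_of_nonneg_right c4 (by positivity)) a3)
        (Smo.dil h hc (by positivity) hΛ (by rwa [mul_assoc, ← pow_succ]))
    rw [dil_dil] at d5 d7 d9
    have l0 : (0 : ℝ) < d' := by exact_mod_cast d2
    refine ⟨κ', inferInstance, inferInstance, fun j => (e j).1, d * d', Λ * lam, Gn'', pn'',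
      fun z => P (P' z), Subtype.val_injective.comp d1, Nat.mul_pos c1 d2, ?_, ?_, d5, d6,
      c5.comp d7, fun z => ?_, d9, L * L', K' * K, fun y => J (scl S B0 d' y) + mR L *ᵥ J' y, ?_,
      c7.ort.mul d10.ort, ?_, fun z => ?_, fun y => ?_⟩
    · push_cast
      exact mul_le_mul c2 d3 l0.le (by linarith)
    · rw [pow_succ']
      exact mul_le_mul_of_nonneg_left d4 (by linarith)
    · rw [c6, d8, Nat.cast_mul, ← scl_scl]; rfl
    · rw [Matrix.mul_assoc, ← Matrix.mul_assoc K, c7.inv, Matrix.one_mul, d10.inv]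
    · rw [d10.gram, c7.gram, mR_mul, transpose_mul]
      simp only [Matrix.mul_assoc]
    · rw [c7.map, d10.map, d8, mulVec_add, mulVec_mulVec, mR_mul, add_assoc]; rfl
    · have e1 : Gn' *ᵥ pn' (scl S B0 d' y) = (mR L)ᵀ *ᵥ (Gn *ᵥ
          (pn (scl S B0 d (scl S B0 d' y)) - J (scl S B0 d' y))) := by rw [c7.cen, mulVec_inv c3.pd]
      have e2 : Gn' *ᵥ J' y = (mR L)ᵀ *ᵥ (Gn *ᵥ (mR L *ᵥ J' y)) := by
        rw [c7.gram, ← mulVec_mulVec, ← mulVec_mulVec]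
      rw [d10.cen, mulVec_sub, ← sub_sub, mulVec_sub Gn, mR_mul, transpose_mul, ← mulVec_mulVec,
        mulVec_sub (mR L)ᵀ, Nat.cast_mul, ← scl_scl, ← e1, ← e2]
      rfl

theorem ExtOut2.mono {S : MS V ι} {B0 : Finset V} {κ : Type} [Fintype κ] [DecidableEq κ]
    {fn : κ → Finset V} {Gn : Matrix κ κ ℝ} {pn : (ι → ℝ) → κ → ℝ} {N : ℕ} {W η Lam E Lam' E' : ℝ}
    (h : ExtOut2 S B0 fn Gn pn N W η Lam E) (h1 : Lam ≤ Lam') (h2 : E ≤ E') :
    ExtOut2 S B0 fn Gn pn N W η Lam' E' := by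
  obtain ⟨κ', _, _, e, d, lam, G, p, P, d1, d2, d3, d4, d5, d6, d7⟩ := h
  exact ⟨κ', inferInstance, inferInstance, e, d, lam, G, p, P, d1, d2, d3, d4.trans h1, d5,
    d6.trans h2, d7⟩

theorem pow_le_exp {x a t b : ℝ} {n : ℕ} (hx : 0 ≤ x) (h : x ≤ Real.exp a) (ha : 0 ≤ a)
    (hn : (n : ℝ) ≤ t) (hb : t * a ≤ b) : x ^ n ≤ Real.exp b := by
  refine (pow_le_pow_left₀ hx h n).trans ?_
  rw [← Real.exp_nat_mul]
  exact Real.exp_le_exp.2 ((mul_le_mul_of_nonneg_right hn ha).trans hb)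

theorem mul_le_exp {x y a b : ℝ} (hy : 0 ≤ y) (h : x ≤ Real.exp a) (h' : y ≤ Real.exp b) :
    x * y ≤ Real.exp (a + b) := by
  rw [Real.exp_add]; exact mul_le_mul h h' hy (Real.exp_pos a).le

theorem pow_chain {Z : ℝ} (h : 10 ≤ Z) : 10 * Z ≤ Z ^ 2 ∧ 10 * Z ^ 2 ≤ Z ^ 3 ∧
    10 * Z ^ 3 ≤ Z ^ 4 ∧ 10 * Z ^ 4 ≤ Z ^ 5 ∧ 10 * Z ^ 5 ≤ Z ^ 6 ∧ 10 * Z ^ 6 ≤ Z ^ 7 := by
  have k : ∀ n : ℕ, 10 * Z ^ n ≤ Z ^ (n + 1) := fun n => by
    rw [pow_succ']; exact mul_le_mul_of_nonneg_right h (by positivity)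
  exact ⟨by simpa using k 1, k 2, k 3, k 4, k 5, k 6⟩

theorem two_le_exp : (2 : ℝ) ≤ Real.exp 1 := by linarith [Real.add_one_le_exp 1]

theorem exp_quarter {x Z : ℝ} (hx : x ≤ -(Z + 2)) : Real.exp x ≤ Real.exp (-Z) / 4 := by
  have := Real.exp_le_exp.2 hx
  rw [neg_add, Real.exp_add] at this
  have h2 : Real.exp (-2) ≤ 1 / 4 := by
    rw [Real.exp_neg, ← one_div, div_le_div_iff₀ (Real.exp_pos 2) (by norm_num),
      show (2 : ℝ) = 1 + 1 by norm_num, Real.exp_add]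
    nlinarith [two_le_exp]
  nlinarith [Real.exp_pos (-Z)]

theorem sq_le_exp {Z : ℝ} (h : 10 ≤ Z) : Z ^ 2 ≤ Real.exp Z := by
  have := Real.pow_div_factorial_le_exp Z (by linarith) 3
  norm_num [Nat.factorial] at this
  linarith [(pow_chain h).2.1, sq_nonneg Z]

theorem ext_num {c v N r : ℕ} {Z t : ℝ} (Z10 : 10 ≤ Z) (hc : 7 * (c : ℝ) ≤ Z) (hV : (v : ℝ) ≤ Z)
    (hr : (r : ℝ) ≤ Z) (hNV : ((N ^ v : ℕ) : ℝ) ≤ Z) (hVN : (v : ℝ) * N ≤ Real.exp Z)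
    (ht : t ≤ Real.exp Z) :
    (Real.exp (2 * Z) / Real.exp (-(6 * Z ^ 3))) ^ c ≤ Real.exp (Z ^ 4) ∧
    ((2 * Real.exp Z) ^ r * Real.exp (3 * Z ^ 2)) ^ N ^ v ≤ Real.exp (5 * Z ^ 3) ∧
    Real.exp (-Z ^ 7) + (Real.exp (-(6 * Z ^ 3)) + v * N * Real.exp (-Z ^ 7) +
      2 * Real.exp (-(π * (Z ^ 2) ^ 2 / 2))) * Real.exp (5 * Z ^ 3) ≤ Real.exp (-Z) ∧
    2 * (Real.exp (2 * Z) / Real.exp (-(6 * Z ^ 3))) ^ c * (Real.exp Z * Z ^ 2) *
      Real.exp (3 * Z ^ 2) ≤ Real.exp (2 * Z ^ 4) ∧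
    2 * ((Real.exp (2 * Z) / Real.exp (-(6 * Z ^ 3))) ^ c * Real.exp Z ^ v) * 2 ^ v *
      Real.exp (3 * Z ^ 2) ≤ Real.exp (2 * Z ^ 4) ∧
    t * (Real.exp Z * Z ^ 2) ^ r ≤ Real.exp (3 * Z ^ 2) ∧
    ∀ b : ℕ, (b : ℝ) ≤ Z → Real.exp Z * Real.exp (Z ^ 4) * (Real.exp (2 * Z ^ 4) ^ b) ^ r ≤
      Real.exp (Z ^ 7) := by
  have Z0 : 0 < Z := by linarith
  obtain ⟨p2, p3, p4, p5, p6, p7⟩ := pow_chain Z10
  have e2 := two_le_exp
  have e4 : Real.exp (2 * Z) / Real.exp (-(6 * Z ^ 3)) = Real.exp (2 * Z + 6 * Z ^ 3) := by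
    rw [← Real.exp_sub, sub_neg_eq_add]
  have e5 : (Real.exp (2 * Z) / Real.exp (-(6 * Z ^ 3))) ^ c ≤ Real.exp (Z ^ 4) :=
    pow_le_exp (t := Z / 7) (by positivity) e4.le (by positivity) (by linarith) (by linarith)
  have e6 : Real.exp Z * Z ^ 2 ≤ Real.exp (Z + Z) :=
    mul_le_exp (by positivity) le_rfl (sq_le_exp Z10)
  refine ⟨e5, ?_, ?_, ?_, ?_, ?_, fun b hB => ?_⟩
  · exact pow_le_exp (a := Z * (1 + Z) + 3 * Z ^ 2) (by positivity) (mul_le_exp (by positivity)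
      (pow_le_exp (by positivity) (mul_le_exp (by positivity) e2 le_rfl) (by positivity) hr le_rfl)
      le_rfl) (by positivity) hNV (by linarith)
  · have a1 := exp_quarter (x := -Z ^ 7) (Z := Z) (by linarith)
    have a2 := (mul_le_exp (Real.exp_pos _).le le_rfl le_rfl).trans
      (exp_quarter (x := -(6 * Z ^ 3) + 5 * Z ^ 3) (Z := Z) (by linarith))
    have a3 := (mul_le_exp (Real.exp_pos _).le (mul_le_exp (Real.exp_pos _).le hVN le_rfl)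
      le_rfl).trans (exp_quarter (x := Z + -Z ^ 7 + 5 * Z ^ 3) (Z := Z) (by linarith))
    have a4 := (mul_le_exp (Real.exp_pos _).le (mul_le_exp (Real.exp_pos _).le e2 le_rfl)
      le_rfl).trans (exp_quarter (x := 1 + -(π * (Z ^ 2) ^ 2 / 2) + 5 * Z ^ 3) (Z := Z) (by
        have : 3 * (Z ^ 2) ^ 2 ≤ π * (Z ^ 2) ^ 2 :=
          mul_le_mul_of_nonneg_right Real.pi_gt_three.le (by positivity)
        linarith))
    linarith
  · exact (mul_le_exp (by positivity) (mul_le_exp (by positivity) (mul_le_exp (by positivity) e2 e5)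
      e6) le_rfl).trans (Real.exp_le_exp.2 (by linarith))
  · exact (mul_le_exp (by positivity) (mul_le_exp (by positivity) (mul_le_exp (by positivity) e2
      (mul_le_exp (by positivity) e5 (pow_le_exp (by positivity) le_rfl Z0.le hV le_rfl)))
      (pow_le_exp (by norm_num) e2 zero_le_one hV le_rfl)) le_rfl).trans
      (Real.exp_le_exp.2 (by linarith))
  · exact (mul_le_exp (by positivity) ht (pow_le_exp (by positivity) e6 (by positivity) hr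
      le_rfl)).trans (Real.exp_le_exp.2 (by linarith))
  · exact (mul_le_exp (by positivity) (mul_le_exp (by positivity) le_rfl le_rfl)
      (pow_le_exp (by positivity) (pow_le_exp (by positivity) le_rfl (by positivity) hB le_rfl)
        (by positivity) hr le_rfl)).trans (Real.exp_le_exp.2 (by linarith))

omit [DecidableEq V] [Fintype V] [DecidableEq ι] [Fintype ι] in
/-- regularisation of new top coordinates -/
theorem ext2 (n : ℕ) : ∃ c : ℕ, ∀ {V ι κ : Type} [DecidableEq V] [Fintype V] [DecidableEq ι]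
    [Fintype ι] [DecidableEq κ] [Fintype κ] {S : MS V ι} {fn : κ → Finset V} {Gn : Matrix κ κ ℝ}
    {pn : (ι → ℝ) → κ → ℝ} {B0 : Finset V} {N : ℕ} {Z : ℝ}, Fintype.card V ≤ n → S.Ok → S.Cen →
    TopOk S fn Gn pn → (∀ j, (fn j ∩ B0).Nonempty) → (c : ℝ) ≤ Z → (Fintype.card κ : ℝ) ≤ Z →
    (Fintype.card ι : ℝ) ≤ Real.exp Z → ((N + 1 : ℝ)) ^ n ≤ Z → th Gn⁻¹ 0 ≤ Real.exp Z →
    Smo S univ (max N c) (Real.exp (Z ^ 7)) (Real.exp (-Z ^ 7)) →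
    ExtOut2 S B0 fn Gn pn N (Real.exp Z) (Real.exp (-Z)) (Real.exp (Z ^ 6))
      (Real.exp (3 * Z ^ 2)) := by
  obtain ⟨c, _, hc⟩ := exists_bp n
  refine ⟨7 * c + n + 10, ?_⟩
  intro V ι κ _ _ _ _ _ _ S fn Gn pn B0 N Z hV h h' ht hb hZ hκ hι hN hG hs
  push_cast at hZ
  have c0 : (0 : ℝ) ≤ c := Nat.cast_nonneg c
  have n0 : (0 : ℝ) ≤ n := Nat.cast_nonneg n
  have N0 : (0 : ℝ) ≤ N := Nat.cast_nonneg N
  have Z10 : 10 ≤ Z := by linarith
  have Z0 : 0 < Z := by linarith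
  obtain ⟨p2, p3, p4, p5, p6, p7⟩ := pow_chain Z10
  have hV' : (Fintype.card V : ℝ) ≤ Z := le_trans (Nat.cast_le.2 hV) (by linarith)
  have e1 : ∀ {x : ℝ}, 0 ≤ x → 1 ≤ Real.exp x := fun hx => Real.one_le_exp hx
  have hNV : ((N ^ Fintype.card V : ℕ) : ℝ) ≤ Z := by
    push_cast
    exact ((pow_le_pow_left₀ N0 (by linarith) _).trans
      (pow_le_pow_right₀ (by linarith) hV)).trans hN
  have hVN : (Fintype.card V : ℝ) * N ≤ Real.exp Z := by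
    rcases Nat.eq_zero_or_pos n with h0 | h0
    · rw [show Fintype.card V = 0 by omega]; simp [(Real.exp_pos Z).le]
    · have := (le_self_pow₀ (by linarith : (1 : ℝ) ≤ N + 1) h0.ne').trans hN
      have h2 := mul_le_mul hV' (by linarith : (N : ℝ) ≤ Z) N0 Z0.le
      linarith [sq_le_exp Z10]
  obtain ⟨a1, a2, a3, a4, a5, a6, a7⟩ := ext_num (c := c) Z10 (by linarith) hV' hκ hNV hVN hG
  refine (ext_ind (hc V hV) B0 (N0 := max N (7 * c + n + 10)) (e1 Z0.le) (e1 (by positivity))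
    (Real.exp_pos _) ?_ (two_le_exp.trans (Real.exp_le_exp.2 (by linarith))) ?_ a1 ?_
    (le_max_of_le_right (by omega)) (le_max_left _ _) (Real.exp_le_one_iff.2 (by linarith))
    (by linarith) (e1 (by positivity)) a2 a3 a4 a5 _ S κ fn Gn pn h h' ht hb le_rfl le_rfl a6
    (hs.mono h h' (cls_univ S) (cls_univ S) Subset.rfl le_rfl (by positivity)
      (a7 _ ((Nat.cast_le.2 (card_le_univ B0)).trans hV')) le_rfl)).mono
    (pow_le_exp (Real.exp_pos _).le le_rfl (by positivity) hκ (by linarith)) le_rfl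
  · have := exp_quarter (x := -(6 * Z ^ 3)) (Z := Z) (by linarith)
    linarith [Real.exp_le_one_iff.2 (by linarith : -Z ≤ 0)]
  · rw [two_mul, Real.exp_add]
    nlinarith [Real.add_one_le_exp Z]
  · rw [← inv_div, inv_pow, Real.exp_neg (Z ^ 7)]
    exact inv_anti₀ (by positivity) (a1.trans (Real.exp_le_exp.2 (by linarith)))

omit [DecidableEq V] [Fintype V] [DecidableEq ι] [Fintype ι] in
/-- regularisation of new top coordinates -/
theorem ext (n : ℕ) : ∃ c : ℕ, ∀ {V ι κ : Type} [DecidableEq V] [Fintype V] [DecidableEq ι]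
    [Fintype ι] [DecidableEq κ] [Fintype κ] {S : MS V ι} {fn : κ → Finset V} {Gn : Matrix κ κ ℝ}
    {pn : (ι → ℝ) → κ → ℝ} {B0 : Finset V} {N : ℕ} {Z : ℝ}, Fintype.card V ≤ n → S.Ok → S.Cen →
    TopOk S fn Gn pn → (∀ j, (fn j ∩ B0).Nonempty) → (c : ℝ) ≤ Z → (Fintype.card κ : ℝ) ≤ Z →
    (Fintype.card ι : ℝ) ≤ Real.exp Z → ((N + 1 : ℝ)) ^ n ≤ Z → th Gn⁻¹ 0 ≤ Real.exp Z →
    Smo S univ (max N c) (Real.exp (Z ^ 7)) (Real.exp (-Z ^ 7)) →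
    ExtOut S B0 fn Gn pn N (Real.exp Z) (Real.exp (-Z)) (Real.exp (Z ^ 6))
      (Real.exp (3 * Z ^ 2)) :=
  let ⟨c, hc⟩ := ext2 n
  ⟨c, fun a1 a2 a3 a4 a5 a6 a7 a8 a9 a10 a11 => (hc a1 a2 a3 a4 a5 a6 a7 a8 a9 a10 a11).out⟩

end

end Vale.Agent.P057MA
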