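import Vale.Agent.P057MA.Cx

/-!
One tier: smoothness of the lower tiers and absence of short relations give smoothness.
-/

set_option linter.all false

open Matrix Finset
open scoped Real
open Vale.Agent.P267.H775 Vale.Agent.P057G Vale.Agent.P057HU

namespace Vale.Agent.P057MA

noncomputable section

/-- the dichotomy for biased forms on smooth systems -/
def BP (V : Type) [Fintype V] [DecidableEq V] (c : ℕ) : Prop :=
  ∀ (ι : Type) [Fintype ι] [DecidableEq ι] (S : MS V ι), S.Ok → S.Cen →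
    ∀ (q : Finset ι) (F : Finset V) (Φ : (ι → ℝ) → ℝ) (D δ W η : ℝ) (N : ℕ), Cls S q →
      (∀ i ∈ q, S.fc i ⊆ F) → F.Nonempty → Fm S q F Φ → 0 < δ → δ ≤ 1 / 2 → 2 ≤ D →
      (q.card : ℝ) ≤ D → (D / δ) ^ c ≤ W → η ≤ (δ / D) ^ c → c ≤ N → Smo S q N W η →
      δ * vl S.G q ≤ S.bias q Φ →
      ∃ n : ℕ, 0 < n ∧ (n : ℝ) ≤ (D / δ) ^ c ∧ Near S q F (fun z => n * Φ z) ((D / δ) ^ c)

section gen

variable {V ι : Type*} [DecidableEq ι] [Fintype ι] [DecidableEq V] {S : MS V ι}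

/-- the combination of centres with coefficients `k` -/
def kp (S : MS V ι) (k : ι → ℤ) (z : ι → ℝ) : ℝ := ∑ i, (k i : ℝ) * S.p z i

/-- `k` is supported on the block of face `F` and level `l` inside `q` -/
def Sup (S : MS V ι) (q : Finset ι) (F : Finset V) (l : ℕ) (k : ι → ℤ) : Prop :=
  ∀ i, k i ≠ 0 → i ∈ q ∧ S.fc i = F ∧ S.lv i = l

/-- a short relation on the block of face `F` and level `l` -/
def Rl (S : MS V ι) (q : Finset ι) (l : ℕ) (B Q H : ℝ) (F : Finset V) (k : ι → ℤ) (n : ℕ) : Prop :=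
  Sup S q F l k ∧ k ≠ 0 ∧ Dn S.G k B ∧ 0 < n ∧ (n : ℝ) ≤ Q ∧
    Near S (q ∩ low S l ∩ fce S F) F (fun z => n * kp S k z) H

/-- no short relation at level `l` -/
def NoRl (S : MS V ι) (q : Finset ι) (l : ℕ) (B Q H : ℝ) : Prop := ∀ F k n, ¬ Rl S q l B Q H F k n

theorem fm_kp (h : S.Ok) (hc : S.Cen) {q : Finset ι} (hq : Cls S q) {F : Finset V} {l : ℕ}
    {k : ι → ℤ} (hk : Sup S q F l k) : Fm S (q ∩ low S l ∩ fce S F) F (kp S k) := by
  refine Fm.sum univ fun i _ => ?_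
  by_cases h0 : k i = 0
  · simpa only [h0, Int.cast_zero, zero_mul] using Fm.zero S _ F
  · obtain ⟨h1, h2, h3⟩ := hk i h0
    refine ((fm_p h hc i).smul _).mono (fun j hj => ?_) h2.ge
    have := mem_dps.1 hj
    exact mem_inter.2 ⟨mem_inter.2 ⟨hq.dep i h1 j this, mem_low.2 (h3 ▸ this.2)⟩,
      mem_fce.2 (h2 ▸ this.1)⟩

theorem alt_sum {κ : Type*} (s : Finset κ) (a : κ → ℝ) (f : κ → (ι → ℝ) → ℝ) (I : Finset V)
    (z : ι → ℝ) :
    S.alt I (fun z => ∑ k ∈ s, a k * f k z) z = ∑ k ∈ s, a k * S.alt I (f k) z := by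
  simp only [MS.alt, mul_sum]
  rw [sum_comm]
  exact sum_congr rfl fun _ _ => sum_congr rfl fun _ _ => by ring

theorem alt_indep {I : Finset V} {v : V} (hv : v ∈ I) {f : (ι → ℝ) → ℝ}
    (hf : ∀ x y, f (mix (S.st v) x y) = f y) (z : ι → ℝ) : S.alt I f z = 0 := by
  rw [← insert_erase hv, MS.alt_insert (notMem_erase v I), sub_eq_zero]
  refine sum_congr rfl fun T _ => ?_
  rw [MS.kz, MS.kz, mix_mix_comm, hf]

theorem ln1_cen (h : S.Ok) (hc : S.Cen) (v : V) : S.ln1 v = S := by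
  have := MS.lnr_insert (S := S) (notMem_empty v)
  rw [h.lnr_of_cen hc, MS.lnr_empty] at this
  exact this.symm

/-- deleting vertices changes the bias of a form on the other vertices by little -/
theorem bias_del (h : S.Ok) (hc : S.Cen) {q : Finset ι} (hq : Cls S q) {η : ℝ}
    (hm : S.mass q ≤ 1 + η) (T : Finset V) {θ : (ι → ℝ) → ℝ} (hθ : On (univ \ S.sts T) θ) :
    S.bias q θ / vl S.G q ≤ S.bias (q \ S.sts T) θ / vl S.G (q \ S.sts T) + T.card * η := by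
  have hs : ∀ U : Finset V, Cls S (q \ S.sts U) := fun U => by
    induction U using Finset.induction_on with
    | empty => rwa [MS.sts_empty, sdiff_empty]
    | insert v U _ ih =>
      have e : q \ S.sts (insert v U) = (q \ S.sts U) \ S.st v := by
        rw [MS.sts_insert, union_comm, sdiff_sdiff_left]; rfl
      rw [e]; exact ih.sdiff_st v
  have h1 := h.norm_del_sts q (M := η) T (fun v _ U _ => by
      rw [ln1_cen h hc]
      linarith [Cls.mass_mono h hc hq (hs U) sdiff_subset,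
        h.one_le_mass hc ((hs (insert v U)).sat h)])
    (f := fun z => ee (θ (toR z))) (C := 1) (fun z => (norm_ee _).le) fun z z' hz => by
      rw [hθ (toR z) (toR z') fun i hi => congrArg Int.cast (hz i (Finset.mem_sdiff.1 hi).2)]
  have h2 := (le_abs_self _).trans ((Complex.abs_re_le_norm _).trans h1)
  rw [Complex.sub_re, Complex.div_ofReal_re, Complex.div_ofReal_re, h.re_bias, h.re_bias] at h2
  linarith

/-- Poisson summation in a top set of coordinates -/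
theorem mass_top_bound (h : S.Ok) {q D : Finset ι} (hD : Sat S.G D)
    (hd : ∀ i ∈ q, ∀ j ∈ q ∩ D, ¬ S.Dep i j) {δ R : ℝ} (hδ : 0 ≤ δ)
    (hb : ∀ k : ↥(q ∩ D) → ℤ, k ≠ 0 → qq (blk S.G (q ∩ D))⁻¹ (toR k) ≤ R ^ 2 →
      S.bias (q \ D) (fun z => ∑ i : ↥(q ∩ D), k i * S.p z i) ≤ δ * vl S.G (q \ D)) :
    S.mass q ≤ S.mass (q \ D) + δ * cx S.G (q ∩ D) + S.mass (q \ D) *
      (Real.exp (-(π * R ^ 2 / 2)) * (√2 ^ (q ∩ D).card * cx S.G (q ∩ D))) := by
  have h1 := h.hasSum_top_re hD hd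
  have hA := (posDef_blk h.pd (q ∩ D)).inv
  have p1 := vl_pos h.pd (q ∩ D)
  have p2 := vl_pos h.pd (q \ D)
  have m0 := h.mass_nonneg (q \ D)
  have h2 := hasSum_ite_eq (0 : ↥(q ∩ D) → ℤ) (S.mass (q \ D))
  have h3 := (hasSum_cx h (q ∩ D)).mul_left δ
  have h4 := (summable_ind (summable_gs hA 0) fun k =>
    R ^ 2 ≤ qq (blk S.G (q ∩ D))⁻¹ (toR k - 0)).hasSum.mul_left (S.mass (q \ D))
  have h5 := tail_norm hA 0 (R ^ 2)
  rw [Fintype.card_coe] at h5
  have h6 := hasSum_le (fun k => by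
    rw [mul_assoc]
    refine mul_le_mul_of_nonneg_left ?_ p1.le
    have g0 := gs_pos (blk S.G (q ∩ D))⁻¹ (toR k)
    have b1 := (h.bias_le (q \ D) fun z => ∑ i : ↥(q ∩ D), k i * S.p z i).trans
      (h.hasSum_wt (q \ D)).tsum_eq.le
    have t0 : 0 ≤ S.mass (q \ D) * (if R ^ 2 ≤ qq (blk S.G (q ∩ D))⁻¹ (toR k - 0) then
        gs (blk S.G (q ∩ D))⁻¹ (toR k - 0) else 0) :=
      mul_nonneg m0 (by split_ifs; exacts [(gs_pos _ _).le, le_rfl])
    have t1 : 0 ≤ δ * gs (blk S.G (q ∩ D))⁻¹ (toR k) := by positivity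
    by_cases hk : k = 0
    · rw [if_pos hk]
      have : gs (blk S.G (q ∩ D))⁻¹ (toR k) = 1 := by rw [hk, toR_zero, gs_zero]
      rw [this] at t1 ⊢
      nlinarith
    rw [if_neg hk, zero_add]
    by_cases hR : R ^ 2 ≤ qq (blk S.G (q ∩ D))⁻¹ (toR k - 0)
    · rw [if_pos hR, sub_zero]
      nlinarith [mul_le_mul_of_nonneg_left b1 g0.le]
    · rw [if_neg hR, mul_zero, add_zero]
      have := hb k hk (by rw [sub_zero] at hR; linarith)
      nlinarith [mul_le_mul_of_nonneg_left this g0.le]) h1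
    ((((h2.add h3).add h4).mul_right (vl S.G (q \ D))).mul_left (vl S.G (q ∩ D)))
  rw [MS.mass, div_le_iff₀ (vl_pos h.pd q), vl_split h.pd hD q]
  refine h6.trans ?_
  have h7 := mul_le_mul_of_nonneg_left h5 m0
  have h8 := mul_le_mul_of_nonneg_right h7 (mul_pos p1 p2).le
  unfold cx at *
  nlinarith

/-- linearisation to one face of maximal size and deletion of the other vertices -/
theorem bias_face [Fintype V] (h : S.Ok) (hc : S.Cen) {q : Finset ι} (hq : Cls S q) {η : ℝ}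
    (hm : S.mass q ≤ 1 + η) {r : Finset ι} (k : r → ℤ) (hk : k ≠ 0) :
    ∃ a0, k a0 ≠ 0 ∧ (S.bias q fun z => ∑ a : r, k a * S.p z a) / vl S.G q ≤
      (S.bias (q ∩ fce S (S.fc a0)) fun z =>
        ∑ a : r, k a * if S.fc a = S.fc a0 then S.p z a else 0) / vl S.G (q ∩ fce S (S.fc a0)) +
      Fintype.card V * η := by
  obtain ⟨a0, ha0, hmax⟩ := exists_max_image (univ.filter fun a => k a ≠ 0)
    (fun a => (S.fc a).card) (by
      by_contra h0
      refine hk (funext fun a => by_contra fun h1 => h0 ⟨a, mem_filter.2 ⟨mem_univ _, h1⟩⟩))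
  refine ⟨a0, (mem_filter.1 ha0).2, ?_⟩
  have e1 : S.alt (S.fc a0) (fun z => ∑ a : r, k a * S.p z a) =
      fun z => ∑ a : r, k a * if S.fc a = S.fc a0 then S.p z a else 0 := by
    funext z
    rw [alt_sum]
    refine sum_congr rfl fun a _ => ?_
    by_cases h0 : k a = 0
    · simp [h0]
    congr 1
    split_ifs with e
    · rw [MS.alt_of_lin fun v hv => h.lin hc (e ▸ hv)]
    · obtain ⟨v, hv, hv2⟩ : ∃ v ∈ S.fc a0, v ∉ S.fc a := by
        by_contra h4
        push Not at h4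
        exact e (eq_of_subset_of_card_le h4 (hmax a (mem_filter.2 ⟨mem_univ _, h0⟩))).symm
      exact alt_indep hv (p_indep h hv2) z
  have h4 := h.norm_le_bias q (hc.ne a0) (θ := fun z => ∑ a : r, k a * S.p z a) fun v _ =>
    Aff.sum univ (fun a => (k a : ℝ)) fun a _ => aff_p h v a
  rw [h.lnr_of_cen hc, e1] at h4
  have h5 := (h.re_bias q fun z => ∑ a : r, k a * S.p z a).ge.trans
    ((Complex.re_le_norm _).trans h4)
  have e2 : ∀ i, i ∉ S.sts (univ \ S.fc a0) ↔ S.fc i ⊆ S.fc a0 := fun i => by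
    rw [MS.mem_sts]
    exact ⟨fun h1 w hw => by_contra fun h0 => h1 ⟨w, Finset.mem_sdiff.2 ⟨mem_univ _, h0⟩, hw⟩,
      fun h1 ⟨w, w1, w2⟩ => (Finset.mem_sdiff.1 w1).2 (h1 w2)⟩
  have e3 : q \ S.sts (univ \ S.fc a0) = q ∩ fce S (S.fc a0) := by
    ext i; rw [Finset.mem_sdiff, mem_inter, e2, mem_fce]
  have h6 := bias_del h hc hq hm (univ \ S.fc a0)
    (θ := fun z => ∑ a : r, k a * if S.fc a = S.fc a0 then S.p z a else 0) fun z z' hz =>
      sum_congr rfl fun a _ => by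
        split_ifs with e
        · rw [h.loc a z z' fun j hj =>
            hz j (Finset.mem_sdiff.2 ⟨mem_univ _, (e2 j).2 (e ▸ hj.1)⟩)]
        · rfl
  rw [e3] at h6
  have η0 : 0 ≤ η := by linarith [h.one_le_mass hc (hq.sat h)]
  have h7 : (((univ \ S.fc a0).card : ℕ) : ℝ) ≤ Fintype.card V := by exact_mod_cast card_le_univ _
  exact (div_le_div_of_nonneg_right h5 (vl_pos h.pd q).le).trans
    (h6.trans (add_le_add le_rfl (mul_le_mul_of_nonneg_right h7 η0)))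

variable [Fintype V] {C : Type*} [Fintype C] [DecidableEq C] {c0 : C}

theorem cp_of_sub {a b : BI S.fc c0} (hb : (blow S c0).fc b ⊆ (blow S c0).fc a) :
    cp S.fc c0 a.1.2 b.1.1 = b := by
  conv_rhs => rw [← cp_self b]
  exact cp_congr fun v hv => ((fc_blow_sub.1 hb).2 v hv).symm

theorem fc_cp_eq {a : BI S.fc c0} {j : ι} (hj : S.fc j = S.fc a.1.1) :
    (blow S c0).fc (cp S.fc c0 a.1.2 j) = (blow S c0).fc a := by
  rw [fc_blow_cp, hj]; rfl

theorem vld_fce (q : Finset ι) (a : BI S.fc c0) :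
    vld S.fc c0 q ∩ fce (blow S c0) ((blow S c0).fc a) =
      (q ∩ fce S (S.fc a.1.1)).image (cp S.fc c0 a.1.2) := by
  ext b
  rw [mem_inter, mem_vld, mem_fce, mem_image]
  constructor
  · rintro ⟨b1, b2⟩
    exact ⟨b.1.1, mem_inter.2 ⟨b1, mem_fce.2 (fc_blow_sub.1 b2).1⟩, cp_of_sub b2⟩
  · rintro ⟨j, hj, rfl⟩
    exact ⟨(mem_inter.1 hj).1,
      fc_blow_sub.2 ⟨mem_fce.1 (mem_inter.1 hj).2, fun v hv => cp_snd _ hv⟩⟩

/-- the part of a dual vector of the blow-up on one copy of one block -/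
theorem exists_restrict (h : S.Ok) {q : Finset ι} (hq : Cls S q) {l : ℕ} {r : Finset (BI S.fc c0)}
    (hr : ∀ a, a ∈ r ↔ a.1.1 ∈ q ∧ S.lv a.1.1 = l) (k : r → ℤ) (a0 : r) (hk : k a0 ≠ 0)
    {W R : ℝ} (hW : W ≠ 0) (hR : qq (blk (nar (blow S c0) W).G r)⁻¹ (toR k) ≤ R ^ 2) :
    ∃ k' : ι → ℤ, Sup S q (S.fc a0.1.1.1) l k' ∧ k' ≠ 0 ∧ Dn S.G k' (W * R) ∧
      ∀ w : BI S.fc c0 → ℝ, ∑ j, (k' j : ℝ) * w (cp S.fc c0 a0.1.1.2 j) =
        ∑ a : r, k a * if (blow S c0).fc a = (blow S c0).fc a0 then w a else 0 := by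
  have hT := ok_nar (ok_blow h c0) hW
  let k0 : BI S.fc c0 → ℤ := fun a => if ha : a ∈ r then k ⟨a, ha⟩ else 0
  have hk0 : ∀ a : r, k0 a = k a := fun a => dif_pos a.2
  let s := q.filter fun j => S.fc j = S.fc a0.1.1.1 ∧ S.lv j = l
  let k' : ι → ℤ := fun j => if j ∈ s then k0 (cp S.fc c0 a0.1.1.2 j) else 0
  have him : ∀ a, a ∈ s.image (cp S.fc c0 a0.1.1.2) ↔
      a ∈ r ∧ (blow S c0).fc a = (blow S c0).fc a0 := fun a => by
    rw [mem_image, hr]
    constructor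
    · rintro ⟨j, hj, rfl⟩
      obtain ⟨j1, j2, j3⟩ := mem_filter.1 hj
      exact ⟨⟨j1, j3⟩, fc_cp_eq j2⟩
    · rintro ⟨⟨a1, a2⟩, e⟩
      exact ⟨a.1.1, mem_filter.2 ⟨a1, Subset.antisymm (fc_blow_sub.1 e.le).1
        (fc_blow_sub.1 e.ge).1, a2⟩, cp_of_sub e.le⟩
  have hsum : ∀ w : BI S.fc c0 → ℝ, ∑ j, (k' j : ℝ) * w (cp S.fc c0 a0.1.1.2 j) =
      ∑ a : r, k a * if (blow S c0).fc a = (blow S c0).fc a0 then w a else 0 := fun w => by
    have e1 : ∑ j, (k' j : ℝ) * w (cp S.fc c0 a0.1.1.2 j) =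
        ∑ a ∈ s.image (cp S.fc c0 a0.1.1.2), (k0 a : ℝ) * w a := by
      rw [sum_image fun _ _ _ _ e => cp_inj _ _ _ e, ← sum_subset (subset_univ s)
        fun j _ hj => by simp [k', hj]]
      exact sum_congr rfl fun j hj => by simp [k', hj]
    rw [e1]
    simp only [← hk0]
    rw [sum_coe_sort r fun a => (k0 a : ℝ) *
      if (blow S c0).fc a = (blow S c0).fc a0 then w a else 0]
    rw [← sum_subset (s₁ := s.image (cp S.fc c0 a0.1.1.2)) (fun a ha => ((him a).1 ha).1)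
      fun a a1 a2 => by rw [if_neg fun e => a2 ((him a).2 ⟨a1, e⟩), mul_zero]]
    exact sum_congr rfl fun a ha => by rw [if_pos ((him a).1 ha).2]
  refine ⟨k', fun j hj => mem_filter.1 (by_contra fun h0 => hj (if_neg h0)), fun h0 => hk ?_,
    fun u => ?_, hsum⟩
  · have h1 := congrFun h0 a0.1.1.1
    have h2 : a0.1.1.1 ∈ s := mem_filter.2 ⟨((hr _).1 a0.2).1, rfl, ((hr _).1 a0.2).2⟩
    simp only [k', if_pos h2, cp_self] at h1
    rw [← hk0, h1]; rfl
  have hs : Sat S.G s := h.sat fun i j a b hi => mem_filter.2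
    ⟨hq.blk i j a b (mem_filter.1 hi).1, a ▸ b ▸ (mem_filter.1 hi).2⟩
  let w : BI S.fc c0 → ℝ := msk (s.image (cp S.fc c0 a0.1.1.2)) fun b => u b.1.1
  have d1 : toR k' ⬝ᵥ u = toR k ⬝ᵥ fun a => w a := by
    refine (hsum fun b => u b.1.1).trans (sum_congr rfl fun a _ => ?_)
    congr 1
    exact if_congr ⟨fun e => (him a).2 ⟨a.2, e⟩, fun e => ((him a).1 e).2⟩ rfl rfl
  have d2 := dot_sq_le (posDef_blk hT.pd r) (fun a => w a) (toR k)
  rw [dotProduct_comm, ← d1, ← qq_msk] at d2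
  have d3 : msk r w = w := by
    funext b
    by_cases hb : b ∈ r
    · exact msk_pos _ hb
    · rw [msk_neg _ hb]
      exact (msk_neg _ fun h0 => hb ((him b).1 h0).1).symm
  have d4 : qq (nar (blow S c0) W).G w ≤ W ^ 2 * qq S.G u := by
    change qq (W ^ 2 • (blow S c0).G) w ≤ _
    rw [qq_smul_mat, qq_msk_image (cp_inj _ _ _) fun i _ j _ => G_cp h _ i j]
    refine mul_le_mul_of_nonneg_left ?_ (sq_nonneg W)
    have := qq_msk_le h.pd hs (subset_univ s) u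
    rwa [show msk univ u = u from funext fun i => msk_pos _ (mem_univ i)] at this
  rw [d3] at d2
  exact d2.trans ((mul_le_mul d4 hR (qq_nonneg (posDef_blk hT.pd _).inv.posSemidef _)
    (mul_nonneg (sq_nonneg W) (qq_nonneg h.pd.posSemidef u))).trans (le_of_eq (by ring)))

end gen

variable {V ι : Type} [DecidableEq ι] [Fintype ι] [DecidableEq V] [Fintype V] {S : MS V ι}

/-- a biased top term of the blow-up gives a short relation -/
theorem rel_of_bias {c : ℕ} (hB : BP V c) (h : S.Ok) (hc : S.Cen) {q : Finset ι} (hq : Cls S q)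
    {l : ℕ} {N0 : ℕ} {W W1 η0 D δ R : ℝ} (hW : 1 ≤ W) (hW1 : 1 ≤ W1)
    (hs : Smo S (q ∩ low S l) N0 (W * W1) η0) (hδ : 0 < δ) (hδ1 : δ ≤ 1 / 2) (hD : 2 ≤ D)
    (hqD : (q.card : ℝ) ≤ D) (h1 : (D / δ) ^ c ≤ W1) (h2 : η0 ≤ (δ / D) ^ c) (h3 : c ≤ N0)
    {C : Type} [Fintype C] [DecidableEq C] (c0 : C) (hC : Fintype.card C ≤ N0)
    {r : Finset (BI S.fc c0)} (hr : ∀ a, a ∈ r ↔ a.1.1 ∈ q ∧ S.lv a.1.1 = l)
    (k : r → ℤ) (hk : k ≠ 0) (hR : qq (blk (nar (blow S c0) W).G r)⁻¹ (toR k) ≤ R ^ 2)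
    (hb : (δ + Fintype.card V * Fintype.card C * η0) *
        vl (nar (blow S c0) W).G (vld S.fc c0 (q ∩ low S l)) <
      (nar (blow S c0) W).bias (vld S.fc c0 (q ∩ low S l))
        fun z => ∑ a : r, k a * (blow S c0).p z a) :
    ∃ F k n, Rl S q l (W * R) ((D / δ) ^ c) ((D / δ) ^ c * W ^ Fintype.card V) F k n := by
  have hW0 : 0 < W := by linarith
  have hS := ok_nar h hW0.ne'
  have hS' := cen_nar hc W
  have hT := ok_nar (ok_blow h c0) hW0.ne'
  have hT' := cen_nar (cen_blow hc c0) W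
  have hq0 : Cls S (q ∩ low S l) := hq.inter (cls_low S l)
  have hm := (hs.mono h hc hq0 hq0 Subset.rfl le_rfl hW0 (le_mul_of_one_le_right hW0.le hW1)
    le_rfl) C c0 hC
  obtain ⟨a0, hk0, h4⟩ := bias_face hT hT' ((hq0.vld c0).nar W) hm k hk
  obtain ⟨k', hsup, hk', hdn, hsum⟩ := exists_restrict h hq hr k a0 hk0 hW0.ne' hR
  have hfm := fm_kp h hc hq hsup
  have e1 : (fun z => ∑ a : r, (k a : ℝ) *
      if (blow S c0).fc a = (blow S c0).fc a0 then (blow S c0).p z a else 0) =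
      fun z => kp S k' (z ∘ cp S.fc c0 a0.1.1.2) := funext fun z => by
    rw [← hsum, kp]
    simp only [p_cp h]
  have h5 := bias_cp (c0 := c0) hS a0.1.1.2 (q ∩ low S l ∩ fce S (S.fc a0.1.1.1)) (kp S k')
  have h6 := vl_cp (c0 := c0) hS a0.1.1.2 (q ∩ low S l ∩ fce S (S.fc a0.1.1.1))
  rw [blow_nar] at h5 h6
  have e2 := vld_fce (q ∩ low S l) a0.1
  have h7 : (nar (blow S c0) W).bias (vld S.fc c0 (q ∩ low S l))
        (fun z => ∑ a : r, k a * (blow S c0).p z a) /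
        vl (nar (blow S c0) W).G (vld S.fc c0 (q ∩ low S l)) ≤
      (nar S W).bias (q ∩ low S l ∩ fce S (S.fc a0.1.1.1)) (kp S k') /
        vl (nar S W).G (q ∩ low S l ∩ fce S (S.fc a0.1.1.1)) + Fintype.card (V × C) * η0 := by
    rw [← h5, ← h6]
    refine h4.trans (le_of_eq ?_)
    exact congrArg₂ (fun a b => (nar (blow S c0) W).bias a b / vl (nar (blow S c0) W).G a +
      Fintype.card (V × C) * η0) e2 e1
  rw [Fintype.card_prod, Nat.cast_mul] at h7
  have h8 := (lt_div_iff₀ (vl_pos hT.pd _)).2 hb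
  have hq1 := hq0.inter (cls_fce S (S.fc a0.1.1.1))
  obtain ⟨n, n1, n2, J, j1, j2, j3⟩ := hB ι (nar S W) hS hS' _ _ (kp S k') D δ W1 η0 N0 (hq1.nar W)
    (fun i hi => mem_fce.1 (mem_inter.1 hi).2) (hc.ne _) ⟨hfm.on, hfm.lin⟩ hδ hδ1 hD
    (le_trans (by exact_mod_cast card_le_card (inter_subset_left.trans inter_subset_left)) hqD)
    h1 h2 h3 (hs.mono h hc hq0 hq1 inter_subset_left le_rfl (by positivity) le_rfl le_rfl).nar
    ((le_div_iff₀ (vl_pos hS.pd _)).1 (by linarith))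
  have j4 : Fm S _ _ J := ⟨j1.on, j1.lin⟩
  refine ⟨_, k', n, hsup, hk', hdn, n1, n2, J, j4, j2, ?_⟩
  refine (j3.of_nar h hc hW ((hfm.smul n).sub j4).lin fun i hi => ?_).mono ?_
  · rw [inter_eq_left.2 (mem_fce.1 (mem_inter.1 hi).2)]; exact hc.ne i
  · exact mul_le_mul_of_nonneg_left (pow_le_pow_right₀ hW (card_le_univ _)) (by positivity)

/-- one tier -/
theorem smo_step {c : ℕ} (hB : BP V c) (h : S.Ok) (hc : S.Cen) {q : Finset ι} (hq : Cls S q)
    {l : ℕ} (hl : ∀ i ∈ q, S.lv i ≤ l) {N N0 : ℕ} {W W1 η0 D δ R E η : ℝ} (hW : 1 ≤ W)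
    (hW1 : 1 ≤ W1) (hs : Smo S (q ∩ low S l) N0 (W * W1) η0) (hδ : 0 < δ) (hδ1 : δ ≤ 1 / 2)
    (hD : 2 ≤ D) (hqD : (q.card : ℝ) ≤ D) (h1 : (D / δ) ^ c ≤ W1) (h2 : η0 ≤ (δ / D) ^ c)
    (h3 : c ≤ N0) (hN : N ≤ N0) (hη0 : η0 ≤ 1)
    (hE : ((2 * W) ^ (q \ low S l).card * cx S.G (q \ low S l)) ^ N ^ Fintype.card V ≤ E)
    (hr : NoRl S q l (W * R) ((D / δ) ^ c) ((D / δ) ^ c * W ^ Fintype.card V))
    (hη : η0 + (δ + Fintype.card V * N * η0 + 2 * Real.exp (-(π * R ^ 2 / 2))) * E ≤ η) :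
    Smo S q N W η := by
  intro C _ _ c0 hC
  have hW0 : 0 < W := by linarith
  have hT := ok_nar (ok_blow h c0) hW0.ne'
  have hT' := cen_nar (cen_blow hc c0) W
  have hq0 : Cls S (q ∩ low S l) := hq.inter (cls_low S l)
  have hm := (hs.mono h hc hq0 hq0 Subset.rfl le_rfl hW0 (le_mul_of_one_le_right hW0.le hW1)
    le_rfl) C c0 (hC.trans hN)
  have η0' : 0 ≤ η0 := by linarith [hT.one_le_mass hT' (((hq0.vld c0).nar W).sat hT)]
  have hsat : Sat (nar (blow S c0) W).G (univ \ low (blow S c0) l) :=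
    Sat.sdiff hT.pd.1 (fun _ j _ hj => absurd (mem_univ j) hj) (((cls_low _ l).nar W).sat hT)
  have e1 : vld S.fc c0 q \ (univ \ low (blow S c0) l) = vld S.fc c0 (q ∩ low S l) := by
    ext a; simp [mem_vld, mem_low, blow]
  have e2 : vld S.fc c0 q ∩ (univ \ low (blow S c0) l) = vld S.fc c0 (q \ low S l) := by
    ext a; simp [mem_vld, mem_low, blow]
  have h4 := mass_top_bound hT (q := vld S.fc c0 q) hsat (fun a ha b hb hd =>
      (Finset.mem_sdiff.1 (mem_inter.1 hb).2).2 (mem_low.2 (hd.2.trans_le (hl _ (mem_vld.1 ha)))))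
    (δ := δ + Fintype.card V * Fintype.card C * η0) (R := R) (by positivity) fun k hk hR => by
      rw [e1]
      by_contra h0
      obtain ⟨F, k, n, h5⟩ := rel_of_bias hB h hc hq hW hW1 hs hδ hδ1 hD hqD h1 h2 h3 c0
        (hC.trans hN) (fun a => by
          rw [e2, mem_vld, Finset.mem_sdiff, mem_low]
          exact ⟨fun h => ⟨h.1, le_antisymm (hl _ h.1) (not_lt.1 h.2)⟩,
            fun h => ⟨h.1, by omega⟩⟩) k hk hR (not_le.1 h0)
      exact hr F k n h5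
  rw [e1, e2] at h4
  have hs1 : Sat S.G (q \ low S l) := (hq.sat h).sdiff h.pd.1 ((cls_low S l).sat h)
  have hM : Fintype.card C ^ Fintype.card V ≤ N ^ Fintype.card V := Nat.pow_le_pow_left hC _
  have c1 := cx_smul (ok_blow h c0).pd hW (vld S.fc c0 (q \ low S l))
  have c2 := (cx_vld (c0 := c0) h hs1).trans (pow_le_pow_right₀ (one_le_cx h.pd _) hM)
  have c3 := (card_vld (S := S) (c0 := c0) (q \ low S l)).trans (Nat.mul_le_mul_right _ hM)
  have c0' := one_le_cx hT.pd (vld S.fc c0 (q \ low S l))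
  have s1 : (1 : ℝ) ≤ √2 := Real.one_le_sqrt.2 (by norm_num)
  have s2 : √2 ≤ 2 := Real.sqrt_le_iff.2 ⟨by norm_num, by norm_num⟩
  have c4 : √2 ^ (vld S.fc c0 (q \ low S l)).card *
      cx (nar (blow S c0) W).G (vld S.fc c0 (q \ low S l)) ≤ E := by
    refine le_trans ?_ hE
    rw [mul_pow, ← pow_mul, mul_comm (q \ low S l).card]
    refine (mul_le_mul_of_nonneg_left (c1.trans (mul_le_mul_of_nonneg_left c2 (by positivity)))
      (by positivity)).trans ?_
    rw [← mul_assoc, ← mul_pow]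
    refine mul_le_mul_of_nonneg_right ?_ (by linarith [one_le_cx (ok_blow h c0).pd (vld S.fc c0 (q \ low S l))])
    exact (pow_le_pow_left₀ (by positivity) (by nlinarith) _).trans
      (pow_le_pow_right₀ (by linarith) c3)
  have c5 : cx (nar (blow S c0) W).G (vld S.fc c0 (q \ low S l)) ≤ E :=
    le_trans (le_mul_of_one_le_left (by linarith) (one_le_pow₀ s1)) c4
  have c6 : δ + Fintype.card V * Fintype.card C * η0 ≤ δ + Fintype.card V * N * η0 := by
    have : (Fintype.card C : ℝ) ≤ N := by exact_mod_cast hC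
    gcongr
  have c7 := mul_le_mul c6 c5 (by linarith) (by positivity)
  have c8 := mul_le_mul (hm.trans (by linarith : 1 + η0 ≤ 2))
    (mul_le_mul_of_nonneg_left c4 (Real.exp_pos (-(π * R ^ 2 / 2))).le) (by positivity)
    (by norm_num)
  linarith

end

end Vale.Agent.P057MA
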